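import Vale.Agent.P296.Bdl.B1

/-!
# P296 (H354): Levi forms of products with exponential weights
-/

namespace Vale.Agent.P296.H354

open Complex Matrix
open scoped ContDiff ComplexOrder Topology

/-- `f · levi (log f) ≤ levi f` -/
theorem levi_log_le {T : Type*} [NormedAddCommGroup T] [NormedSpace ℂ T] {f : T → ℝ} {p : T}
    (hf : ContDiffAt ℝ 2 f p) (hpos : 0 < f p) (X : T) :
    f p * levi (fun q => Real.log (f q)) p X ≤ levi f p X := by
  rw [LogHom.levi_eq, LogHom.levi_eq, LogHom.fderiv2_log hf hpos, LogHom.fderiv2_log hf hpos]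
  set a := fderiv ℝ (fderiv ℝ f) p X X
  set b := fderiv ℝ (fderiv ℝ f) p (I • X) (I • X)
  set c := fderiv ℝ f p X
  set d := fderiv ℝ f p (I • X)
  have h1 : f p * (4⁻¹ * ((f p)⁻¹ * a - (f p ^ 2)⁻¹ * (c * c) +
      ((f p)⁻¹ * b - (f p ^ 2)⁻¹ * (d * d)))) = 4⁻¹ * (a + b) -
        4⁻¹ * (f p)⁻¹ * (c ^ 2 + d ^ 2) := by
    field_simp
    ring
  rw [h1]
  have : 0 ≤ 4⁻¹ * (f p)⁻¹ * (c ^ 2 + d ^ 2) := by positivity
  linarith

/-- the logarithm of a homogeneous function with positive Levi form is plurisubharmonic -/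
theorem levi_log_nonneg {V W : Type*} [NormedAddCommGroup V] [NormedSpace ℂ V]
    [NormedAddCommGroup W] [NormedSpace ℂ W] {P : V × W → ℝ} {z : V} {u : W} {k : ℕ} (hk : 0 < k)
    (hP : ContDiffAt ℝ 2 P (z, u)) (hpos : 0 < P (z, u))
    (hhom : ∀ᶠ q in 𝓝 ((z, u) : V × W), ∀ t : ℂ, t ≠ 0 → P (q.1, t • q.2) = ‖t‖ ^ (2 * k) * P q)
    (hlevi : ∀ X : V × W, X ≠ 0 → 0 < levi P (z, u) X)
    (X : V × W) : 0 ≤ levi (fun q => Real.log (P q)) (z, u) X := by
  obtain ⟨ξ, w⟩ := X
  by_cases hX : ξ = 0 ∧ ∃ c : ℂ, w = c • u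
  · obtain ⟨h1, c, h2⟩ := hX
    have hlog : ContDiffAt ℝ 2 (fun q => Real.log (P q)) (z, u) := hP.log hpos.ne'
    rw [← levi_line hlog]
    have hev : (fun τ : ℂ => Real.log (P ((z, u) + τ • (ξ, w)))) =ᶠ[𝓝 0]
        fun τ => reCLM ((2 * k : ℝ) * Complex.log (1 + τ * c) + (Real.log (P (z, u)) : ℂ)) := by
      have h3 : ∀ᶠ τ : ℂ in 𝓝 0, 1 + τ * c ∈ slitPlane := by
        have hc : Continuous fun τ : ℂ => 1 + τ * c := by fun_prop
        apply hc.continuousAt.eventually
        apply Complex.isOpen_slitPlane.mem_nhds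
        simp
      filter_upwards [h3] with τ hτ
      have h4 : 1 + τ * c ≠ 0 := Complex.slitPlane_ne_zero hτ
      have h5 : ((z, u) + τ • (ξ, w) : V × W) = (z, (1 + τ * c) • u) := by
        rw [h1, h2, Prod.smul_mk, Prod.mk_add_mk, smul_zero, add_zero, add_smul, one_smul,
          mul_smul]
      rw [h5, hhom.self_of_nhds _ h4]
      have h6 : 0 < ‖1 + τ * c‖ := norm_pos_iff.mpr h4
      rw [Real.log_mul (by positivity) hpos.ne', Real.log_pow]
      simp [Complex.log_re]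
    rw [levi_congr hev]
    have han : AnalyticAt ℂ (fun τ : ℂ => ((2 * k : ℝ) : ℂ) * Complex.log (1 + τ * c) +
        (Real.log (P (z, u)) : ℂ)) 0 := by
      have h7 : AnalyticAt ℂ (fun τ : ℂ => Complex.log (1 + τ * c)) 0 := by
        apply AnalyticAt.clog
        · fun_prop
        · simp
      fun_prop
    have hcd := (han.contDiffAt (n := 2)).restrict_scalars ℝ
    have := LC.levi_clm reCLM (1 : ℂ) hcd
    rw [this, LC.analytic_levi han]
    simp
  · exact (levi_log_pos hk hP hpos hhom hlevi ξ w hX).le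

section prod

variable {T V W V' : Type*} [NormedAddCommGroup T] [NormedSpace ℂ T]
  [NormedAddCommGroup V] [NormedSpace ℂ V] [NormedAddCommGroup W] [NormedSpace ℂ W]
  [NormedAddCommGroup V'] [NormedSpace ℂ V']

theorem levi_zero_dir {T : Type*} [NormedAddCommGroup T] [NormedSpace ℂ T] (f : T → ℝ) (p : T) :
    levi f p 0 = 0 := by
  rw [LogHom.levi_eq]
  simp

/-- Levi form of a function composed with a linear map -/
theorem levi_comp_clm (π : T →L[ℂ] V) {f : V → ℝ} {p : T} (hf : ContDiffAt ℝ 2 f (π p)) (X : T) :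
    levi (fun q => f (π q)) p X = levi f (π p) (π X) := by
  have h := levi_comp_hol (f := f) (Θ := π) (p := p) hf π.contDiff.contDiffAt X
  rw [π.fderiv] at h
  exact h

/-- Levi form of a product `e^w P` in separate variables -/
theorem levi_twist_pos (π : T →L[ℂ] V × W) (ρ : T →L[ℂ] V') {P : V × W → ℝ} {w : V' → ℝ}
    (hw : ContDiff ℝ 2 w) (hwpos : ∀ z ξ, ξ ≠ 0 → 0 < levi w z ξ) {k : ℕ} (hk : 0 < k) {p : T}
    (hP : ContDiffAt ℝ 2 P (π p)) (hpos : 0 < P (π p))
    (hhom : ∀ᶠ q in 𝓝 (π p), ∀ t : ℂ, t ≠ 0 → P (q.1, t • q.2) = ‖t‖ ^ (2 * k) * P q)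
    (hlevi : ∀ X : V × W, X ≠ 0 → 0 < levi P (π p) X) {X : T} (hX : π X ≠ 0 ∨ ρ X ≠ 0) :
    0 < levi (fun q => Real.exp (w (ρ q)) * P (π q)) p X := by
  have hPπ : ContDiffAt ℝ 2 (fun q => P (π q)) p :=
    hP.comp p (π.contDiff.restrict_scalars ℝ).contDiffAt
  have hwρ : ContDiffAt ℝ 2 (fun q => w (ρ q)) p :=
    hw.contDiffAt.comp p (ρ.contDiff.restrict_scalars ℝ).contDiffAt
  have hf : ContDiffAt ℝ 2 (fun q => Real.exp (w (ρ q)) * P (π q)) p := hwρ.exp.mul hPπ
  by_cases hρ : ρ X = 0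
  · have hπ : π X ≠ 0 := by
      rcases hX with h | h
      · exact h
      · exact absurd hρ h
    rw [← levi_line hf]
    have e : (fun τ : ℂ => Real.exp (w (ρ (p + τ • X))) * P (π (p + τ • X))) =
        fun τ => Real.exp (w (ρ p)) • P (π p + τ • π X) := by
      funext τ
      rw [map_add, map_add, map_smul, map_smul, hρ, smul_zero, add_zero, smul_eq_mul]
    have hline : ContDiffAt ℝ 2 (fun τ : ℂ => P (π p + τ • π X)) 0 := LC.contDiffAt_cline _ hP
    rw [e, levi_const_smul hline, levi_line hP, smul_eq_mul]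
    exact mul_pos (Real.exp_pos _) (hlevi _ hπ)
  · have hfpos : 0 < Real.exp (w (ρ p)) * P (π p) := mul_pos (Real.exp_pos _) hpos
    have hlogP : ContDiffAt ℝ 2 (fun q => Real.log (P q)) (π p) := hP.log hpos.ne'
    have hlogPπ : ContDiffAt ℝ 2 (fun q => Real.log (P (π q))) p :=
      ContDiffAt.comp (g := fun q => Real.log (P q)) p hlogP
        (π.contDiff.restrict_scalars ℝ).contDiffAt
    have hev : (fun q => Real.log (Real.exp (w (ρ q)) * P (π q))) =ᶠ[𝓝 p]
        fun q => w (ρ q) + Real.log (P (π q)) := by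
      filter_upwards [hPπ.continuousAt.eventually (eventually_gt_nhds hpos)] with q hq
      rw [Real.log_mul (Real.exp_ne_zero _) hq.ne', Real.log_exp]
    have h1 : 0 < levi (fun q => Real.log (Real.exp (w (ρ q)) * P (π q))) p X := by
      rw [levi_congr hev, levi_add hwρ hlogPπ, levi_comp_clm ρ hw.contDiffAt,
        levi_comp_clm (f := fun q => Real.log (P q)) π hlogP]
      have h2 := hwpos (ρ p) (ρ X) hρ
      have h3 := levi_log_nonneg (z := (π p).1) (u := (π p).2) hk hP hpos hhom hlevi (π X)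
      have h4 : 0 ≤ levi (fun q => Real.log (P q)) (π p) (π X) := h3
      linarith
    exact (mul_pos hfpos h1).trans_le (levi_log_le hf hfpos X)

/-- Levi form of a product `e^w P` in directions along which it is constant -/
theorem levi_twist_zero (π : T →L[ℂ] V × W) (ρ : T →L[ℂ] V') {P : V × W → ℝ} {w : V' → ℝ}
    (hw : ContDiff ℝ 2 w) {p : T} (hP : ContDiffAt ℝ 2 P (π p)) {X : T} (h1 : π X = 0)
    (h2 : ρ X = 0) : levi (fun q => Real.exp (w (ρ q)) * P (π q)) p X = 0 := by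
  have hPπ : ContDiffAt ℝ 2 (fun q => P (π q)) p :=
    hP.comp p (π.contDiff.restrict_scalars ℝ).contDiffAt
  have hwρ : ContDiffAt ℝ 2 (fun q => w (ρ q)) p :=
    hw.contDiffAt.comp p (ρ.contDiff.restrict_scalars ℝ).contDiffAt
  have hf : ContDiffAt ℝ 2 (fun q => Real.exp (w (ρ q)) * P (π q)) p := hwρ.exp.mul hPπ
  rw [← levi_line hf]
  have e : (fun τ : ℂ => Real.exp (w (ρ (p + τ • X))) * P (π (p + τ • X))) =
      fun τ => Real.exp (w (ρ p)) * P (π p) := by
    funext τ
    rw [map_add, map_add, map_smul, map_smul, h1, h2, smul_zero, smul_zero, add_zero, add_zero]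
  rw [e, LC.levi_const]

end prod

/-- squared euclidean norm in the fibre -/
theorem contDiff_nsq {s : ℕ} {n : WithTop ℕ∞} : ContDiff ℝ n (Curv.nsq (r := s)) := by
  unfold Curv.nsq
  refine ContDiff.sum fun a _ => ?_
  exact (contDiff_apply ℝ ℂ a).norm_sq ℝ

theorem nsq_smul {s : ℕ} (t : ℂ) (u : Fin s → ℂ) : Curv.nsq (t • u) = ‖t‖ ^ 2 * Curv.nsq u := by
  unfold Curv.nsq
  rw [Finset.mul_sum]
  refine Finset.sum_congr rfl fun a _ => ?_
  rw [Pi.smul_apply, smul_eq_mul, norm_mul, mul_pow]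

theorem nsq_pos {s : ℕ} {u : Fin s → ℂ} (hu : u ≠ 0) : 0 < Curv.nsq u := by
  obtain ⟨a, ha⟩ := Function.ne_iff.mp hu
  have h1 : 0 < ‖u a‖ ^ 2 := by
    have := norm_pos_iff.mpr ha
    positivity
  exact h1.trans_le (Finset.single_le_sum (f := fun a => ‖u a‖ ^ 2) (fun _ _ => by positivity)
    (Finset.mem_univ a))

theorem nsq_zero {s : ℕ} : Curv.nsq (0 : Fin s → ℂ) = 0 := by
  simp [Curv.nsq]

/-- `|v + x w|²` along a real line -/
theorem nsq_line {s : ℕ} (v w : Fin s → ℂ) (x : ℝ) :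
    Curv.nsq (v + x • w) = Curv.nsq v + x * (∑ a, 2 * ((v a).re * (w a).re + (v a).im * (w a).im)) +
      x ^ 2 * Curv.nsq w := by
  unfold Curv.nsq
  rw [Finset.mul_sum, Finset.mul_sum, ← Finset.sum_add_distrib, ← Finset.sum_add_distrib]
  refine Finset.sum_congr rfl fun a _ => ?_
  simp only [Complex.sq_norm, Complex.normSq_apply, Pi.add_apply, Pi.smul_apply, add_re, add_im,
    real_smul, mul_re, mul_im, ofReal_re, ofReal_im]
  ring

/-- the sixth power of the euclidean norm has positive Levi form off `0` -/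
theorem levi_nsq_cube_pos {s : ℕ} {u : Fin s → ℂ} (hu : u ≠ 0) {η : Fin s → ℂ} (hη : η ≠ 0) :
    0 < levi (fun v : Fin s → ℂ => Curv.nsq v ^ 3) u η := by
  have hcd : ContDiff ℝ 2 (fun v : Fin s → ℂ => Curv.nsq v ^ 3) := contDiff_nsq.pow 3
  have key : ∀ w : Fin s → ℂ, w ≠ 0 →
      0 < LC.d2 (fun v : Fin s → ℂ => Curv.nsq v ^ 3) u w := by
    intro w hw
    rw [LC.d2_eq_line w hcd.contDiffAt]
    set b := ∑ a, 2 * ((u a).re * (w a).re + (u a).im * (w a).im) with hb
    set a := Curv.nsq u with ha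
    set c := Curv.nsq w with hc
    have ha0 : 0 < a := nsq_pos hu
    have hc0 : 0 < c := nsq_pos hw
    have e : (fun x : ℝ => Curv.nsq (u + x • w) ^ 3) = fun x : ℝ => (a + x * b + x ^ 2 * c) ^ 3 := by
      funext x
      rw [nsq_line]
    rw [e]
    have hq : ∀ x : ℝ, HasDerivAt (fun x : ℝ => a + x * b + x ^ 2 * c) (b + 2 * x * c) x := by
      intro x
      have h := (((hasDerivAt_id x).mul_const b).const_add a).add
        (((hasDerivAt_id x).pow 2).mul_const c)
      refine h.congr_deriv ?_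
      simp
    have hd : deriv (fun x : ℝ => (a + x * b + x ^ 2 * c) ^ 3) =
        fun x => 3 * (a + x * b + x ^ 2 * c) ^ 2 * (b + 2 * x * c) := by
      funext x
      have h := (hq x).pow 3
      have h2 := h.deriv
      rw [show (fun x : ℝ => (a + x * b + x ^ 2 * c) ^ 3) =
        (fun x : ℝ => a + x * b + x ^ 2 * c) ^ 3 from rfl, h2]
      simp
    rw [hd]
    have h2 : HasDerivAt (fun x : ℝ => 3 * (a + x * b + x ^ 2 * c) ^ 2 * (b + 2 * x * c))
        (6 * a * b ^ 2 + 6 * a ^ 2 * c) 0 := by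
      have h3 : HasDerivAt (fun x : ℝ => b + 2 * x * c) (2 * c) 0 := by
        have := (((hasDerivAt_id (0 : ℝ)).const_mul 2).mul_const c).const_add b
        simpa using this
      have h4 := (((hq 0).pow 2).const_mul 3).mul h3
      refine h4.congr_deriv ?_
      simp
      ring
    rw [h2.deriv]
    positivity
  rw [LC.levi_eq]
  have h1 := key η hη
  have h2 := key (I • η) (smul_ne_zero I_ne_zero hη)
  simp only [smul_eq_mul]
  positivity

end Vale.Agent.P296.H354
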