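import Vale.Agent.P296.H354.Ext
import Vale.Agent.P296.H354.Tools

/-!
# P296 (H354): ampleness of the bundle `(E ⊠ L) ⊕ (N ⊠ L)^s`
-/

namespace Vale.Agent.P296.H354

open Complex Matrix
open scoped ContDiff ComplexOrder Topology

section weight

theorem contDiff_wt {m : ℕ} {n : WithTop ℕ∞} : ContDiff ℝ n (wt (m := m)) := by
  unfold wt
  refine ContDiff.sum fun k _ => ?_
  have h : ContDiff ℝ n (fun z : Fin m → ℂ => (z k).im) :=
    imCLM.contDiff.comp (contDiff_apply ℝ ℂ k)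
  exact contDiff_const.mul (h.pow 2)

theorem levi_im_sq (s η : ℂ) : levi (fun z : ℂ => 2 * Real.pi * z.im ^ 2) s η =
    Real.pi * ‖η‖ ^ 2 := by
  have hcd : ContDiff ℝ 2 (fun z : ℂ => 2 * Real.pi * z.im ^ 2) :=
    contDiff_const.mul (imCLM.contDiff.pow 2)
  have key : ∀ w : ℂ, LC.d2 (fun z : ℂ => 2 * Real.pi * z.im ^ 2) s w =
      4 * Real.pi * w.im ^ 2 := by
    intro w
    rw [LC.d2_eq_line w hcd.contDiffAt]
    have e : (fun x : ℝ => 2 * Real.pi * (s + x • w).im ^ 2) =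
        fun x : ℝ => 2 * Real.pi * (s.im + x * w.im) ^ 2 := by
      funext x
      simp
    rw [e]
    have hq : ∀ x : ℝ, HasDerivAt (fun x : ℝ => s.im + x * w.im) w.im x := by
      intro x
      have h := ((hasDerivAt_id x).mul_const w.im).const_add s.im
      simpa using h
    have hd : deriv (fun x : ℝ => 2 * Real.pi * (s.im + x * w.im) ^ 2) =
        fun x => 4 * Real.pi * w.im * (s.im + x * w.im) := by
      funext x
      have h := ((hq x).pow 2).const_mul (2 * Real.pi)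
      have h3 : HasDerivAt (fun x : ℝ => 2 * Real.pi * (s.im + x * w.im) ^ 2)
          (4 * Real.pi * w.im * (s.im + x * w.im)) x := by
        refine h.congr_deriv ?_
        simp
        ring
      exact h3.deriv
    rw [hd]
    have h2 := (hq 0).const_mul (4 * Real.pi * w.im)
    rw [h2.deriv]
    ring
  rw [LC.levi_eq, key, key, ← Complex.normSq_eq_norm_sq, Complex.normSq_apply]
  simp only [smul_eq_mul, mul_im, I_re, zero_mul, I_im, one_mul, zero_add]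
  ring

theorem levi_wt {m : ℕ} (z ξ : Fin m → ℂ) : levi wt z ξ = ∑ k, Real.pi * ‖ξ k‖ ^ 2 := by
  have hk : ∀ k ∈ (Finset.univ : Finset (Fin m)),
      ContDiffAt ℝ 2 (fun z : Fin m → ℂ => 2 * Real.pi * (z k).im ^ 2) z := by
    intro k _
    have h : ContDiff ℝ 2 (fun z : Fin m → ℂ => (z k).im) :=
      imCLM.contDiff.comp (contDiff_apply ℝ ℂ k)
    exact (contDiff_const.mul (h.pow 2)).contDiffAt
  have h1 := LC.levi_sum (Finset.univ : Finset (Fin m))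
    (f := fun k (z : Fin m → ℂ) => 2 * Real.pi * (z k).im ^ 2) (z := z) ξ hk
  have h2 : levi wt z ξ = levi (fun y : Fin m → ℂ => ∑ k, 2 * Real.pi * (y k).im ^ 2) z ξ := rfl
  rw [h2, h1]
  refine Finset.sum_congr rfl fun k _ => ?_
  have h3 := levi_comp_clm (ContinuousLinearMap.proj k : (Fin m → ℂ) →L[ℂ] ℂ)
    (f := fun z : ℂ => 2 * Real.pi * z.im ^ 2) (p := z)
    ((contDiff_const.mul (imCLM.contDiff.pow 2)).contDiffAt) ξ
  rw [← levi_im_sq (z k) (ξ k)]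
  exact h3

theorem levi_wt_pos {m : ℕ} (c : ℝ) (hc : 0 < c) (z ξ : Fin m → ℂ) (hξ : ξ ≠ 0) :
    0 < levi (fun z => c * wt z) z ξ := by
  have h := levi_const_smul (contDiff_wt.contDiffAt (x := z)) c ξ
  simp only [smul_eq_mul] at h
  rw [h, levi_wt]
  refine mul_pos hc ?_
  have := nsq_pos hξ
  unfold Curv.nsq at this
  rw [← Finset.mul_sum]
  exact mul_pos Real.pi_pos this

end weight

section unit

variable {V W : Type*} [NormedAddCommGroup V] [NormedSpace ℂ V]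
  [NormedAddCommGroup W] [NormedSpace ℂ W]

/-- behaviour under scaling in the fibre -/
theorem levi_fibre_smul' {Ω : Set V} (hΩ : IsOpen Ω) {H : V × W → ℝ} {k : ℕ}
    (smooth : ContDiffOn ℝ ∞ H (Ω ×ˢ Set.univ))
    (homog : ∀ z ∈ Ω, ∀ (t : ℂ) (y : W), H (z, t • y) = ‖t‖ ^ k * H (z, y))
    {z : V} (hz : z ∈ Ω) (y : W) (t : ℂ) (ξ : V) (η : W) :
    levi H (z, t • y) (ξ, t • η) = ‖t‖ ^ k * levi H (z, y) (ξ, η) := by
  have hopen : IsOpen (Ω ×ˢ (Set.univ : Set W)) := hΩ.prod isOpen_univ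
  have hat : ∀ y : W, ContDiffAt ℝ 2 H (z, y) := fun y =>
    (smooth.contDiffAt (hopen.mem_nhds ⟨hz, trivial⟩)).of_le two_le_inf
  have hΘ : ContDiff ℂ 2 (fun q : V × W => (q.1, t • q.2)) := by fun_prop
  have h1 := levi_comp_hol (f := H) (Θ := fun q : V × W => (q.1, t • q.2)) (p := (z, y))
    (hat (t • y)) hΘ.contDiffAt (ξ, η)
  have hd : fderiv ℂ (fun q : V × W => (q.1, t • q.2)) (z, y) =
      (ContinuousLinearMap.fst ℂ V W).prod (t • ContinuousLinearMap.snd ℂ V W) :=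
    (hasFDerivAt_fst.prodMk (hasFDerivAt_snd.const_smul t)).fderiv
  rw [hd] at h1
  have hev : (fun q : V × W => H (q.1, t • q.2)) =ᶠ[𝓝 (z, y)] fun q => ‖t‖ ^ k • H q := by
    filter_upwards [hopen.mem_nhds (show (z, y) ∈ Ω ×ˢ (Set.univ : Set W) from ⟨hz, trivial⟩)]
      with q hq
    rw [homog q.1 hq.1, smul_eq_mul]
  rw [levi_congr hev, levi_const_smul (hat y)] at h1
  simpa using h1.symm

/-- it suffices to check positivity for unit vectors -/
theorem pos_of_unit' {Ω : Set V} (hΩ : IsOpen Ω) {H : V × W → ℝ} {k : ℕ}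
    (smooth : ContDiffOn ℝ ∞ H (Ω ×ˢ Set.univ))
    (homog : ∀ z ∈ Ω, ∀ (t : ℂ) (y : W), H (z, t • y) = ‖t‖ ^ k * H (z, y))
    {z : V} (hz : z ∈ Ω)
    (h : ∀ y : W, ‖y‖ = 1 → ∀ X : V × W, ‖X‖ = 1 → 0 < levi H (z, y) X)
    (y : W) (hy : y ≠ 0) (X : V × W) (hX : X ≠ 0) :
    0 < levi H (z, y) X := by
  have hopen : IsOpen (Ω ×ˢ (Set.univ : Set W)) := hΩ.prod isOpen_univ
  have hat : ∀ y : W, ContDiffAt ℝ 2 H (z, y) := fun y =>
    (smooth.contDiffAt (hopen.mem_nhds ⟨hz, trivial⟩)).of_le two_le_inf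
  obtain ⟨ξ, η⟩ := X
  have hny : 0 < ‖y‖ := norm_pos_iff.mpr hy
  set t : ℂ := ((‖y‖⁻¹ : ℝ) : ℂ) with ht
  have htn : ‖t‖ = ‖y‖⁻¹ := by
    rw [ht, Complex.norm_real, Real.norm_eq_abs, abs_of_pos (by positivity)]
  have ht0 : t ≠ 0 := by
    rw [← norm_pos_iff, htn]; positivity
  have h1 := levi_fibre_smul' hΩ smooth homog hz y t ξ η
  have hty : ‖t • y‖ = 1 := by
    rw [norm_smul, htn]
    field_simp
  have hX' : ((ξ, t • η) : V × W) ≠ 0 := by
    intro h0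
    apply hX
    rw [Prod.mk_eq_zero] at h0 ⊢
    refine ⟨h0.1, ?_⟩
    rcases smul_eq_zero.mp h0.2 with h2 | h2
    · exact absurd h2 ht0
    · exact h2
  have key : ∀ X : V × W, X ≠ 0 → 0 < levi H (z, t • y) X := by
    intro X hX
    have hn : 0 < ‖X‖ := norm_pos_iff.mpr hX
    set c : ℂ := ((‖X‖⁻¹ : ℝ) : ℂ) with hc
    have hcn : ‖c‖ = ‖X‖⁻¹ := by
      rw [hc, Complex.norm_real, Real.norm_eq_abs, abs_of_pos (by positivity)]
    have h2 := levi_smul_dir (hat (t • y)) c X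
    have h3 := h (t • y) hty (c • X) (by rw [norm_smul, hcn]; field_simp)
    rw [h2, smul_eq_mul, hcn] at h3
    exact pos_of_mul_pos_right h3 (by positivity)
  have h4 := key _ hX'
  rw [h1] at h4
  exact pos_of_mul_pos_right h4 (by positivity)

end unit

section data

variable {n r : ℕ}

/-- `P` and `Q` on the dual of `E`: a sixth-order function with positive Levi form and a Hermitian
metric -/
structure Data (E : TorusBundle (gaussLattice n) r) where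
  P : E.ι → (Fin n → ℂ) × (Fin r → ℂ) → ℝ
  Q : E.ι → (Fin n → ℂ) × (Fin r → ℂ) → ℝ
  K : E.ι → Set (Fin n → ℂ)
  smooth_P : ∀ i, ContDiffOn ℝ ∞ (P i) {p | p.1 ∈ E.U i}
  smooth_Q : ∀ i, ContDiffOn ℝ ∞ (Q i) {p | p.1 ∈ E.U i}
  pos_P : ∀ i, ∀ z ∈ E.U i, ∀ u, u ≠ 0 → 0 < P i (z, u)
  pos_Q : ∀ i, ∀ z ∈ E.U i, ∀ u, u ≠ 0 → 0 < Q i (z, u)
  homog_P : ∀ i, ∀ z ∈ E.U i, ∀ u, ∀ t : ℂ, P i (z, t • u) = ‖t‖ ^ 6 * P i (z, u)
  homog_Q : ∀ i, ∀ z ∈ E.U i, ∀ u, ∀ t : ℂ, Q i (z, t • u) = ‖t‖ ^ 2 * Q i (z, u)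
  compat_P : ∀ i j, ∀ l ∈ gaussLattice n, ∀ z ∈ E.U j, z + l ∈ E.U i → ∀ u,
      P j (z, u ᵥ* E.g i j l z) = P i (z + l, u)
  compat_Q : ∀ i j, ∀ l ∈ gaussLattice n, ∀ z ∈ E.U j, z + l ∈ E.U i → ∀ u,
      Q j (z, u ᵥ* E.g i j l z) = Q i (z + l, u)
  compact_K : ∀ i, IsCompact (K i)
  K_subset : ∀ i, K i ⊆ E.U i
  cover_K : ∀ z, ∃ i, ∃ l ∈ gaussLattice n, z + l ∈ K i
  levi_P : ∀ i, ∀ z ∈ K i, ∀ u, u ≠ 0 → ∀ X, X ≠ 0 → 0 < levi (P i) (z, u) X

variable {E : TorusBundle (gaussLattice n) r} (D : Data E) (m s : ℕ)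

/-- projection of the total space of the big dual bundle -/
noncomputable def piE (n m r s : ℕ) :
    (Fin (n + m) → ℂ) × (Fin (r + s) → ℂ) →L[ℂ] (Fin n → ℂ) × (Fin r → ℂ) :=
  (pE n m).prodMap (pE r s)

noncomputable def rhoL (n m r s : ℕ) :
    (Fin (n + m) → ℂ) × (Fin (r + s) → ℂ) →L[ℂ] (Fin m → ℂ) :=
  (pL n m).comp (ContinuousLinearMap.fst ℂ _ _)

/-- the second projection, to `ℂ⁰ × ℂ^s` -/
noncomputable def piL (n m r s : ℕ) :
    (Fin (n + m) → ℂ) × (Fin (r + s) → ℂ) →L[ℂ] (Fin 0 → ℂ) × (Fin s → ℂ) :=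
  (0 : (Fin (n + m) → ℂ) →L[ℂ] (Fin 0 → ℂ)).prodMap (pL r s)

noncomputable def rhoA (n m r s : ℕ) :
    (Fin (n + m) → ℂ) × (Fin (r + s) → ℂ) →L[ℂ] (Fin (n + m) → ℂ) :=
  ContinuousLinearMap.fst ℂ _ _

noncomputable def Pt (i : E.ι) (p : (Fin (n + m) → ℂ) × (Fin (r + s) → ℂ)) : ℝ :=
  Real.exp (3 * wt (rhoL n m r s p)) * D.P i (piE n m r s p)

noncomputable def Qt (i : E.ι) (p : (Fin (n + m) → ℂ) × (Fin (r + s) → ℂ)) : ℝ :=
  Real.exp (wt (rhoL n m r s p)) * D.Q i (piE n m r s p)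

noncomputable def Sf (n m r s : ℕ) (p : (Fin (n + m) → ℂ) × (Fin (r + s) → ℂ)) : ℝ :=
  Real.exp (wt (rhoA n m r s p)) * Curv.nsq (piL n m r s p).2

noncomputable def Sc (n m r s : ℕ) (p : (Fin (n + m) → ℂ) × (Fin (r + s) → ℂ)) : ℝ :=
  Real.exp (3 * wt (rhoA n m r s p)) * Curv.nsq (piL n m r s p).2 ^ 3

theorem Sc_eq (p : (Fin (n + m) → ℂ) × (Fin (r + s) → ℂ)) : Sc n m r s p = Sf n m r s p ^ 3 := by
  unfold Sc Sf
  rw [mul_pow, ← Real.exp_nat_mul]
  norm_num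

noncomputable def Mx (i : E.ι) (p : (Fin (n + m) → ℂ) × (Fin (r + s) → ℂ)) : ℝ :=
  Qt D m s i p ^ 2 * Sf n m r s p + Qt D m s i p * Sf n m r s p ^ 2

noncomputable def Ptot (β : ℝ) (i : E.ι) (p : (Fin (n + m) → ℂ) × (Fin (r + s) → ℂ)) : ℝ :=
  β * Mx D m s i p + (Pt D m s i p + Sc n m r s p)

/-- the domain -/
def Dom (E : TorusBundle (gaussLattice n) r) (m s : ℕ) (i : E.ι) :
    Set ((Fin (n + m) → ℂ) × (Fin (r + s) → ℂ)) := {p | pE n m p.1 ∈ E.U i}

theorem isOpen_Dom (i : E.ι) : IsOpen (Dom E m s i) :=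
  (E.isOpen_U i).preimage ((pE n m).continuous.comp continuous_fst)

theorem smooth_Pt (i : E.ι) : ContDiffOn ℝ ∞ (Pt D m s i) (Dom E m s i) := by
  unfold Pt
  have h1 : ContDiff ℝ ∞ (fun p : (Fin (n + m) → ℂ) × (Fin (r + s) → ℂ) =>
      Real.exp (3 * wt (rhoL n m r s p))) :=
    (contDiff_const.mul (contDiff_wt.comp ((rhoL n m r s).contDiff.restrict_scalars ℝ))).exp
  refine h1.contDiffOn.mul ?_
  exact (D.smooth_P i).comp ((piE n m r s).contDiff.restrict_scalars ℝ).contDiffOn fun p hp => hp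

theorem smooth_Qt (i : E.ι) : ContDiffOn ℝ ∞ (Qt D m s i) (Dom E m s i) := by
  unfold Qt
  have h1 : ContDiff ℝ ∞ (fun p : (Fin (n + m) → ℂ) × (Fin (r + s) → ℂ) =>
      Real.exp (wt (rhoL n m r s p))) :=
    (contDiff_wt.comp ((rhoL n m r s).contDiff.restrict_scalars ℝ)).exp
  refine h1.contDiffOn.mul ?_
  exact (D.smooth_Q i).comp ((piE n m r s).contDiff.restrict_scalars ℝ).contDiffOn fun p hp => hp

theorem smooth_Sf : ContDiff ℝ ∞ (Sf n m r s) := by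
  unfold Sf
  have h1 : ContDiff ℝ ∞ (fun p : (Fin (n + m) → ℂ) × (Fin (r + s) → ℂ) =>
      Real.exp (wt (rhoA n m r s p))) :=
    (contDiff_wt.comp ((rhoA n m r s).contDiff.restrict_scalars ℝ)).exp
  refine h1.mul ?_
  exact contDiff_nsq.comp (contDiff_snd.comp ((piL n m r s).contDiff.restrict_scalars ℝ))

theorem smooth_Sc : ContDiff ℝ ∞ (Sc n m r s) := by
  have : Sc n m r s = fun p => Sf n m r s p ^ 3 := funext fun p => Sc_eq m s p
  rw [this]
  exact (smooth_Sf m s).pow 3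

theorem smooth_Mx (i : E.ι) : ContDiffOn ℝ ∞ (Mx D m s i) (Dom E m s i) := by
  unfold Mx
  have h1 := smooth_Qt D m s i
  have h2 : ContDiffOn ℝ ∞ (Sf n m r s) (Dom E m s i) := (smooth_Sf m s).contDiffOn
  exact ((h1.pow 2).mul h2).add (h1.mul (h2.pow 2))

theorem smooth_G (i : E.ι) :
    ContDiffOn ℝ ∞ (fun p => Pt D m s i p + Sc n m r s p) (Dom E m s i) :=
  (smooth_Pt D m s i).add (smooth_Sc m s).contDiffOn

theorem smooth_Ptot (β : ℝ) (i : E.ι) : ContDiffOn ℝ ∞ (Ptot D m s β i) (Dom E m s i) :=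
  (contDiffOn_const.mul (smooth_Mx D m s i)).add (smooth_G D m s i)

/-! ### homogeneity, positivity, compatibility -/

theorem piE_smul (z : Fin (n + m) → ℂ) (t : ℂ) (u : Fin (r + s) → ℂ) :
    piE n m r s (z, t • u) = ((pE n m z, t • pE r s u) : (Fin n → ℂ) × (Fin r → ℂ)) := by
  simp [piE]

theorem Pt_homog (i : E.ι) {z : Fin (n + m) → ℂ} (hz : pE n m z ∈ E.U i)
    (u : Fin (r + s) → ℂ) (t : ℂ) : Pt D m s i (z, t • u) = ‖t‖ ^ 6 * Pt D m s i (z, u) := by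
  unfold Pt
  rw [piE_smul, D.homog_P i _ hz]
  change Real.exp (3 * wt (pL n m z)) * _ = ‖t‖ ^ 6 * (Real.exp (3 * wt (pL n m z)) *
    D.P i (pE n m z, pE r s u))
  ring

theorem Qt_homog (i : E.ι) {z : Fin (n + m) → ℂ} (hz : pE n m z ∈ E.U i)
    (u : Fin (r + s) → ℂ) (t : ℂ) : Qt D m s i (z, t • u) = ‖t‖ ^ 2 * Qt D m s i (z, u) := by
  unfold Qt
  rw [piE_smul, D.homog_Q i _ hz]
  change Real.exp (wt (pL n m z)) * _ = ‖t‖ ^ 2 * (Real.exp (wt (pL n m z)) *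
    D.Q i (pE n m z, pE r s u))
  ring

theorem Sf_homog (z : Fin (n + m) → ℂ) (u : Fin (r + s) → ℂ) (t : ℂ) :
    Sf n m r s (z, t • u) = ‖t‖ ^ 2 * Sf n m r s (z, u) := by
  unfold Sf
  have h : (piL n m r s (z, t • u)).2 = t • (piL n m r s (z, u)).2 := by
    simp [piL]
  rw [h, nsq_smul]
  change Real.exp (wt z) * _ = ‖t‖ ^ 2 * (Real.exp (wt z) * _)
  ring

theorem Ptot_homog (β : ℝ) (i : E.ι) {z : Fin (n + m) → ℂ} (hz : pE n m z ∈ E.U i)
    (u : Fin (r + s) → ℂ) (t : ℂ) :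
    Ptot D m s β i (z, t • u) = ‖t‖ ^ 6 * Ptot D m s β i (z, u) := by
  unfold Ptot Mx
  rw [Sc_eq, Sc_eq, Pt_homog D m s i hz, Qt_homog D m s i hz, Sf_homog]
  ring

theorem Sf_nonneg (p : (Fin (n + m) → ℂ) × (Fin (r + s) → ℂ)) : 0 ≤ Sf n m r s p :=
  mul_nonneg (Real.exp_nonneg _) (Curv.nsq_nonneg _)

theorem Sf_pos (z : Fin (n + m) → ℂ) {u : Fin (r + s) → ℂ} (hu : pL r s u ≠ 0) :
    0 < Sf n m r s (z, u) := mul_pos (Real.exp_pos _) (nsq_pos hu)

theorem P_zero (i : E.ι) {z : Fin n → ℂ} (hz : z ∈ E.U i) : D.P i (z, 0) = 0 := by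
  have h := D.homog_P i z hz 0 0
  simpa using h

theorem Q_zero (i : E.ι) {z : Fin n → ℂ} (hz : z ∈ E.U i) : D.Q i (z, 0) = 0 := by
  have h := D.homog_Q i z hz 0 0
  simpa using h

theorem Pt_pos (i : E.ι) {z : Fin (n + m) → ℂ} (hz : pE n m z ∈ E.U i)
    {u : Fin (r + s) → ℂ} (hu : pE r s u ≠ 0) : 0 < Pt D m s i (z, u) :=
  mul_pos (Real.exp_pos _) (D.pos_P i _ hz _ hu)

theorem Qt_pos (i : E.ι) {z : Fin (n + m) → ℂ} (hz : pE n m z ∈ E.U i)
    {u : Fin (r + s) → ℂ} (hu : pE r s u ≠ 0) : 0 < Qt D m s i (z, u) :=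
  mul_pos (Real.exp_pos _) (D.pos_Q i _ hz _ hu)

theorem Pt_zero (i : E.ι) {z : Fin (n + m) → ℂ} (hz : pE n m z ∈ E.U i)
    {u : Fin (r + s) → ℂ} (hu : pE r s u = 0) : Pt D m s i (z, u) = 0 := by
  unfold Pt
  change _ * D.P i (pE n m z, pE r s u) = 0
  rw [hu, P_zero D i hz, mul_zero]

theorem Qt_zero (i : E.ι) {z : Fin (n + m) → ℂ} (hz : pE n m z ∈ E.U i)
    {u : Fin (r + s) → ℂ} (hu : pE r s u = 0) : Qt D m s i (z, u) = 0 := by
  unfold Qt
  change _ * D.Q i (pE n m z, pE r s u) = 0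
  rw [hu, Q_zero D i hz, mul_zero]

theorem Pt_nonneg (i : E.ι) {z : Fin (n + m) → ℂ} (hz : pE n m z ∈ E.U i)
    (u : Fin (r + s) → ℂ) : 0 ≤ Pt D m s i (z, u) := by
  by_cases hu : pE r s u = 0
  · rw [Pt_zero D m s i hz hu]
  · exact (Pt_pos D m s i hz hu).le

theorem Qt_nonneg (i : E.ι) {z : Fin (n + m) → ℂ} (hz : pE n m z ∈ E.U i)
    (u : Fin (r + s) → ℂ) : 0 ≤ Qt D m s i (z, u) := by
  by_cases hu : pE r s u = 0
  · rw [Qt_zero D m s i hz hu]
  · exact (Qt_pos D m s i hz hu).le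

theorem Ptot_pos {β : ℝ} (hβ : 0 ≤ β) (i : E.ι) {z : Fin (n + m) → ℂ} (hz : pE n m z ∈ E.U i)
    {u : Fin (r + s) → ℂ} (hu : u ≠ 0) : 0 < Ptot D m s β i (z, u) := by
  unfold Ptot Mx
  rw [Sc_eq]
  have h1 := Pt_nonneg D m s i hz u
  have h2 := Qt_nonneg D m s i hz u
  have h3 := Sf_nonneg (n := n) m (r := r) s (z, u)
  have h4 : 0 ≤ β * (Qt D m s i (z, u) ^ 2 * Sf n m r s (z, u) +
      Qt D m s i (z, u) * Sf n m r s (z, u) ^ 2) := by positivity
  by_cases hE : pE r s u = 0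
  · have hL : pL r s u ≠ 0 := fun h => hu (eq_zero_of_parts hE h)
    have h5 := Sf_pos (n := n) m (r := r) s z hL
    have h6 : 0 < Sf n m r s (z, u) ^ 3 := by positivity
    linarith
  · have h5 := Pt_pos D m s i hz hE
    have h6 : 0 ≤ Sf n m r s (z, u) ^ 3 := by positivity
    linarith

theorem exp_wt_aut (c : ℕ) (l z : Fin m → ℂ) :
    Real.exp (c * wt z) * (‖aut l z‖ ^ 2) ^ c = Real.exp (c * wt (z + l)) := by
  rw [norm_aut_sq, ← Real.exp_nat_mul, ← Real.exp_add]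
  congr 1
  ring

theorem Pt_compat (i j : E.ι) {l z : Fin (n + m) → ℂ} (hl : l ∈ gaussLattice (n + m))
    (hz : pE n m z ∈ E.U j) (hzl : pE n m (z + l) ∈ E.U i) (u : Fin (r + s) → ℂ) :
    Pt D m s j (z, u ᵥ* (ext E m s).g i j l z) = Pt D m s i (z + l, u) := by
  unfold Pt
  change Real.exp (3 * wt (pL n m z)) * D.P j (pE n m z, pE r s (u ᵥ* blk _ _)) =
    Real.exp (3 * wt (pL n m (z + l))) * D.P i (pE n m (z + l), pE r s u)
  rw [pE_vecMul_blk, Matrix.vecMul_smul, D.homog_P j _ hz]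
  rw [map_add] at hzl ⊢
  rw [D.compat_P i j _ (pE_mem hl) _ hz hzl, map_add]
  have h := exp_wt_aut m 3 (pL n m l) (pL n m z)
  push_cast at h
  rw [← h]
  ring

theorem Qt_compat (i j : E.ι) {l z : Fin (n + m) → ℂ} (hl : l ∈ gaussLattice (n + m))
    (hz : pE n m z ∈ E.U j) (hzl : pE n m (z + l) ∈ E.U i) (u : Fin (r + s) → ℂ) :
    Qt D m s j (z, u ᵥ* (ext E m s).g i j l z) = Qt D m s i (z + l, u) := by
  unfold Qt
  change Real.exp (wt (pL n m z)) * D.Q j (pE n m z, pE r s (u ᵥ* blk _ _)) =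
    Real.exp (wt (pL n m (z + l))) * D.Q i (pE n m (z + l), pE r s u)
  rw [pE_vecMul_blk, Matrix.vecMul_smul, D.homog_Q j _ hz]
  rw [map_add] at hzl ⊢
  rw [D.compat_Q i j _ (pE_mem hl) _ hz hzl, map_add]
  have h := exp_wt_aut m 1 (pL n m l) (pL n m z)
  rw [Nat.cast_one, one_mul, one_mul, pow_one] at h
  rw [← h]
  ring

theorem Sf_compat (i j : E.ι) {l z : Fin (n + m) → ℂ} (u : Fin (r + s) → ℂ) :
    Sf n m r s (z, u ᵥ* (ext E m s).g i j l z) = Sf n m r s (z + l, u) := by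
  unfold Sf
  change Real.exp (wt z) * Curv.nsq (pL r s (u ᵥ* blk _ _)) =
    Real.exp (wt (z + l)) * Curv.nsq (pL r s u)
  rw [pL_vecMul_blk, nsq_smul]
  have h := exp_wt_aut (n + m) 1 l z
  rw [Nat.cast_one, one_mul, one_mul, pow_one] at h
  rw [← h]
  ring

theorem Ptot_compat (β : ℝ) (i j : E.ι) {l z : Fin (n + m) → ℂ}
    (hl : l ∈ gaussLattice (n + m))
    (hz : pE n m z ∈ E.U j) (hzl : pE n m (z + l) ∈ E.U i) (u : Fin (r + s) → ℂ) :
    Ptot D m s β j (z, u ᵥ* (ext E m s).g i j l z) = Ptot D m s β i (z + l, u) := by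
  unfold Ptot Mx
  rw [Sc_eq, Sc_eq, Pt_compat D m s i j hl hz hzl, Qt_compat D m s i j hl hz hzl, Sf_compat]

/-! ### positivity of the Levi form -/

theorem inf_two {f : (Fin (n + m) → ℂ) × (Fin (r + s) → ℂ) → ℝ} {i : E.ι}
    (hf : ContDiffOn ℝ ∞ f (Dom E m s i)) {z : Fin (n + m) → ℂ} (hz : pE n m z ∈ E.U i)
    (u : Fin (r + s) → ℂ) : ContDiffAt ℝ 2 f (z, u) :=
  (hf.contDiffAt ((isOpen_Dom m s i).mem_nhds hz)).of_le two_le_inf

theorem P_cd (i : E.ι) {z : Fin n → ℂ} (hz : z ∈ E.U i) (u : Fin r → ℂ) :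
    ContDiffAt ℝ 2 (D.P i) (z, u) :=
  ((D.smooth_P i).contDiffAt (((E.isOpen_U i).preimage continuous_fst).mem_nhds hz)).of_le
    two_le_inf

theorem levi_Pt_pos (i : E.ι) {z : Fin (n + m) → ℂ} (hz : pE n m z ∈ D.K i)
    {u : Fin (r + s) → ℂ} (hu : pE r s u ≠ 0) {X : (Fin (n + m) → ℂ) × (Fin (r + s) → ℂ)}
    (hX : X.1 ≠ 0 ∨ pE r s X.2 ≠ 0) : 0 < levi (Pt D m s i) (z, u) X := by
  have hzU := D.K_subset i hz
  refine levi_twist_pos (piE n m r s) (rhoL n m r s) (P := D.P i) (w := fun z => 3 * wt z)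
    (contDiff_const.mul contDiff_wt) (fun z ξ hξ => levi_wt_pos 3 (by norm_num) z ξ hξ)
    (k := 3) (by norm_num) (p := (z, u)) (P_cd D i hzU _) (D.pos_P i _ hzU _ hu) ?_
    (fun X hX => D.levi_P i _ hz _ hu X hX) ?_
  · have h2 : ∀ᶠ q : (Fin n → ℂ) × (Fin r → ℂ) in 𝓝 (piE n m r s (z, u)), q.1 ∈ E.U i :=
      ((E.isOpen_U i).preimage continuous_fst).mem_nhds hzU
    filter_upwards [h2] with q hq t _
    exact D.homog_P i q.1 hq q.2 t
  · by_contra hcon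
    push Not at hcon
    obtain ⟨h1, h2⟩ := hcon
    have h3 : pE n m X.1 = 0 := congrArg Prod.fst h1
    have h4 : pE r s X.2 = 0 := congrArg Prod.snd h1
    have h5 : pL n m X.1 = 0 := h2
    rcases hX with h | h
    · exact h (eq_zero_of_parts h3 h5)
    · exact h h4

theorem levi_Pt_nonneg (i : E.ι) {z : Fin (n + m) → ℂ} (hz : pE n m z ∈ D.K i)
    (u : Fin (r + s) → ℂ) (X : (Fin (n + m) → ℂ) × (Fin (r + s) → ℂ)) :
    0 ≤ levi (Pt D m s i) (z, u) X := by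
  have hzU := D.K_subset i hz
  by_cases hu : pE r s u = 0
  · apply LC.levi_nonneg_of_isLocalMin X (inf_two m s (smooth_Pt D m s i) hzU u)
    filter_upwards [(isOpen_Dom m s i).mem_nhds (show ((z, u) :
      (Fin (n + m) → ℂ) × (Fin (r + s) → ℂ)) ∈ Dom E m s i from hzU)] with q hq
    rw [Pt_zero D m s i hzU hu]
    exact Pt_nonneg D m s i hq q.2
  · by_cases hX : X.1 ≠ 0 ∨ pE r s X.2 ≠ 0
    · exact (levi_Pt_pos D m s i hz hu hX).le
    · push Not at hX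
      have h := levi_twist_zero (piE n m r s) (rhoL n m r s) (P := D.P i)
        (w := fun z => 3 * wt z) (contDiff_const.mul contDiff_wt) (p := (z, u))
        (P_cd D i hzU _) (X := X)
        (by
          change (pE n m X.1, pE r s X.2) = 0
          rw [hX.1, hX.2, map_zero]; rfl)
        (by
          change pL n m X.1 = 0
          rw [hX.1, map_zero])
      exact h.ge

theorem levi_Sc_pos (z : Fin (n + m) → ℂ) {u : Fin (r + s) → ℂ} (hu : pL r s u ≠ 0)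
    {X : (Fin (n + m) → ℂ) × (Fin (r + s) → ℂ)} (hX : X.1 ≠ 0 ∨ pL r s X.2 ≠ 0) :
    0 < levi (Sc n m r s) (z, u) X := by
  have hN : ContDiff ℝ 2 (fun v : Fin s → ℂ => Curv.nsq v ^ 3) := contDiff_nsq.pow 3
  have hP : ContDiff ℝ 2 (fun q : (Fin 0 → ℂ) × (Fin s → ℂ) => Curv.nsq q.2 ^ 3) :=
    hN.comp contDiff_snd
  refine levi_twist_pos (piL n m r s) (rhoA n m r s)
    (P := fun q : (Fin 0 → ℂ) × (Fin s → ℂ) => Curv.nsq q.2 ^ 3)
    (w := fun z => 3 * wt z)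
    (contDiff_const.mul contDiff_wt) (fun z ξ hξ => levi_wt_pos 3 (by norm_num) z ξ hξ)
    (k := 3) (by norm_num) (p := (z, u)) hP.contDiffAt (pow_pos (nsq_pos hu) 3) ?_ ?_ ?_
  · refine Filter.Eventually.of_forall fun q t _ => ?_
    change Curv.nsq (t • q.2) ^ 3 = _
    rw [nsq_smul]
    ring
  · intro Y hY
    have h1 := levi_comp_clm (ContinuousLinearMap.snd ℂ (Fin 0 → ℂ) (Fin s → ℂ))
      (f := fun v : Fin s → ℂ => Curv.nsq v ^ 3) (p := piL n m r s (z, u)) hN.contDiffAt Y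
    have h2 : levi (fun q : (Fin 0 → ℂ) × (Fin s → ℂ) => Curv.nsq q.2 ^ 3)
        (piL n m r s (z, u)) Y = levi (fun v : Fin s → ℂ => Curv.nsq v ^ 3) (pL r s u) Y.2 := h1
    rw [h2]
    refine levi_nsq_cube_pos hu ?_
    intro h0
    exact hY (Prod.ext (Subsingleton.elim _ _) h0)
  · rcases hX with h | h
    · exact Or.inr h
    · exact Or.inl fun h0 => h (congrArg Prod.snd h0)

theorem levi_Sc_nonneg (z : Fin (n + m) → ℂ) (u : Fin (r + s) → ℂ)
    (X : (Fin (n + m) → ℂ) × (Fin (r + s) → ℂ)) : 0 ≤ levi (Sc n m r s) (z, u) X := by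
  by_cases hu : pL r s u = 0
  · apply LC.levi_nonneg_of_isLocalMin X
      (((smooth_Sc (n := n) m (r := r) s).of_le two_le_inf).contDiffAt)
    refine Filter.Eventually.of_forall fun q => ?_
    have h1 : Sc n m r s (z, u) = 0 := by
      unfold Sc
      have : (piL n m r s (z, u)).2 = pL r s u := rfl
      rw [this, hu, nsq_zero]
      ring
    rw [h1, Sc_eq]
    exact pow_nonneg (Sf_nonneg m s q) 3
  · by_cases hX : X.1 ≠ 0 ∨ pL r s X.2 ≠ 0
    · exact (levi_Sc_pos m s z hu hX).le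
    · push Not at hX
      have hN : ContDiff ℝ 2 (fun v : Fin s → ℂ => Curv.nsq v ^ 3) := contDiff_nsq.pow 3
      have hP : ContDiff ℝ 2 (fun q : (Fin 0 → ℂ) × (Fin s → ℂ) => Curv.nsq q.2 ^ 3) :=
        hN.comp contDiff_snd
      have h := levi_twist_zero (piL n m r s) (rhoA n m r s)
        (P := fun q : (Fin 0 → ℂ) × (Fin s → ℂ) => Curv.nsq q.2 ^ 3)
        (w := fun z => 3 * wt z) (contDiff_const.mul contDiff_wt) (p := (z, u))
        hP.contDiffAt (X := X)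
        (by
          refine Prod.ext (Subsingleton.elim _ _) ?_
          exact hX.2)
        (by exact hX.1)
      exact h.ge

/-- `ζ ↦ A |ζ|⁴ + B |ζ|²` has Levi form `B` at `0` -/
theorem levi_quartic (A B : ℝ) :
    levi (fun τ : ℂ => A * (‖τ‖ ^ 2) ^ 2 + B * ‖τ‖ ^ 2) 0 1 = B := by
  have hsq : ContDiff ℝ 2 (fun τ : ℂ => ‖τ‖ ^ 2) := contDiff_id.norm_sq ℝ
  have hcd : ContDiff ℝ 2 (fun τ : ℂ => A * (‖τ‖ ^ 2) ^ 2 + B * ‖τ‖ ^ 2) :=
    (contDiff_const.mul (hsq.pow 2)).add (contDiff_const.mul hsq)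
  have key : ∀ w : ℂ, ‖w‖ = 1 →
      LC.d2 (fun τ : ℂ => A * (‖τ‖ ^ 2) ^ 2 + B * ‖τ‖ ^ 2) 0 w = 2 * B := by
    intro w hw
    rw [LC.d2_eq_line w hcd.contDiffAt]
    have e : (fun x : ℝ => A * (‖(0 : ℂ) + x • w‖ ^ 2) ^ 2 + B * ‖(0 : ℂ) + x • w‖ ^ 2) =
        fun x : ℝ => A * x ^ 4 + B * x ^ 2 := by
      funext x
      rw [zero_add, norm_smul, hw, mul_one, Real.norm_eq_abs, sq_abs]
      ring
    rw [e]
    have hd : deriv (fun x : ℝ => A * x ^ 4 + B * x ^ 2) =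
        fun x => 4 * A * x ^ 3 + 2 * B * x := by
      funext x
      have h : HasDerivAt (fun x : ℝ => A * x ^ 4 + B * x ^ 2)
          (4 * A * x ^ 3 + 2 * B * x) x := by
        refine (((hasDerivAt_pow 4 x).const_mul A).add
          ((hasDerivAt_pow 2 x).const_mul B)).congr_deriv ?_
        simp
        ring
      exact h.deriv
    rw [hd]
    have h2 : HasDerivAt (fun x : ℝ => 4 * A * x ^ 3 + 2 * B * x) (2 * B) 0 := by
      refine (((hasDerivAt_pow 3 (0 : ℝ)).const_mul (4 * A)).add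
        ((hasDerivAt_id (0 : ℝ)).const_mul (2 * B))).congr_deriv ?_
      simp
    exact h2.deriv
  rw [LC.levi_eq, key 1 (by simp), key (I • 1) (by simp)]
  simp only [smul_eq_mul]
  ring

/-- the mixed terms, at points of `L ⊂ E ⊕ L` -/
theorem levi_Mx_pos_left (i : E.ι) {z : Fin (n + m) → ℂ} (hz : pE n m z ∈ E.U i)
    {u : Fin (r + s) → ℂ} (hE : pE r s u = 0) (hL : pL r s u ≠ 0)
    {X : (Fin (n + m) → ℂ) × (Fin (r + s) → ℂ)} (h1 : X.1 = 0) (h2 : pL r s X.2 = 0)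
    (h3 : pE r s X.2 ≠ 0) : 0 < levi (Mx D m s i) (z, u) X := by
  rw [← levi_line (inf_two m s (smooth_Mx D m s i) hz u)]
  have hq : 0 < Qt D m s i (z, X.2) := Qt_pos D m s i hz h3
  have hs : 0 < Sf n m r s (z, u) := Sf_pos m s z hL
  have eQ : ∀ τ : ℂ, Qt D m s i ((z, u) + τ • X) = ‖τ‖ ^ 2 * Qt D m s i (z, X.2) := by
    intro τ
    unfold Qt
    change Real.exp (wt (pL n m (z + τ • X.1))) * D.Q i (pE n m (z + τ • X.1),
      pE r s (u + τ • X.2)) = ‖τ‖ ^ 2 * (Real.exp (wt (pL n m z)) *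
        D.Q i (pE n m z, pE r s X.2))
    rw [h1, smul_zero, add_zero, map_add, hE, zero_add, map_smul, D.homog_Q i _ hz]
    ring
  have eS : ∀ τ : ℂ, Sf n m r s ((z, u) + τ • X) = Sf n m r s (z, u) := by
    intro τ
    unfold Sf
    change Real.exp (wt (z + τ • X.1)) * Curv.nsq (pL r s (u + τ • X.2)) =
      Real.exp (wt z) * Curv.nsq (pL r s u)
    rw [h1, smul_zero, add_zero, map_add, map_smul, h2, smul_zero, add_zero]
  have e : (fun τ : ℂ => Mx D m s i ((z, u) + τ • X)) =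
      fun τ => (Qt D m s i (z, X.2) ^ 2 * Sf n m r s (z, u)) * (‖τ‖ ^ 2) ^ 2 +
        (Qt D m s i (z, X.2) * Sf n m r s (z, u) ^ 2) * ‖τ‖ ^ 2 := by
    funext τ
    unfold Mx
    rw [eQ, eS]
    ring
  rw [e, levi_quartic]
  positivity

theorem levi_Mx_pos_right (i : E.ι) {z : Fin (n + m) → ℂ} (hz : pE n m z ∈ E.U i)
    {u : Fin (r + s) → ℂ} (hE : pE r s u ≠ 0) (hL : pL r s u = 0)
    {X : (Fin (n + m) → ℂ) × (Fin (r + s) → ℂ)} (h1 : X.1 = 0) (h2 : pE r s X.2 = 0)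
    (h3 : pL r s X.2 ≠ 0) : 0 < levi (Mx D m s i) (z, u) X := by
  rw [← levi_line (inf_two m s (smooth_Mx D m s i) hz u)]
  have hq : 0 < Qt D m s i (z, u) := Qt_pos D m s i hz hE
  have hs : 0 < Sf n m r s (z, X.2) := Sf_pos m s z h3
  have eQ : ∀ τ : ℂ, Qt D m s i ((z, u) + τ • X) = Qt D m s i (z, u) := by
    intro τ
    unfold Qt
    change Real.exp (wt (pL n m (z + τ • X.1))) * D.Q i (pE n m (z + τ • X.1),
      pE r s (u + τ • X.2)) = Real.exp (wt (pL n m z)) * D.Q i (pE n m z, pE r s u)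
    rw [h1, smul_zero, add_zero, map_add, map_smul, h2, smul_zero, add_zero]
  have eS : ∀ τ : ℂ, Sf n m r s ((z, u) + τ • X) = ‖τ‖ ^ 2 * Sf n m r s (z, X.2) := by
    intro τ
    unfold Sf
    change Real.exp (wt (z + τ • X.1)) * Curv.nsq (pL r s (u + τ • X.2)) =
      ‖τ‖ ^ 2 * (Real.exp (wt z) * Curv.nsq (pL r s X.2))
    rw [h1, smul_zero, add_zero, map_add, map_smul, hL, zero_add, nsq_smul]
    ring
  have e : (fun τ : ℂ => Mx D m s i ((z, u) + τ • X)) =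
      fun τ => (Qt D m s i (z, u) * Sf n m r s (z, X.2) ^ 2) * (‖τ‖ ^ 2) ^ 2 +
        (Qt D m s i (z, u) ^ 2 * Sf n m r s (z, X.2)) * ‖τ‖ ^ 2 := by
    funext τ
    unfold Mx
    rw [eQ, eS]
    ring
  rw [e, levi_quartic]
  positivity

/-- the compact sets in the big space -/
def Kbig (i : E.ι) : Set (Fin (n + m) → ℂ) := {z | pE n m z ∈ D.K i ∧ ‖pL n m z‖ ≤ 2}

theorem isCompact_Kbig (i : E.ι) : IsCompact (Kbig D m i) := by
  obtain ⟨R, hR⟩ := (D.compact_K i).isBounded.exists_norm_le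
  refine (isCompact_closedBall (0 : Fin (n + m) → ℂ) (max R 2)).of_isClosed_subset ?_ ?_
  · exact ((D.compact_K i).isClosed.preimage (pE n m).continuous).inter
      (isClosed_le (pL n m).continuous.norm continuous_const)
  · intro z hz
    rw [mem_closedBall_zero_iff, pi_norm_le_iff_of_nonneg (le_max_of_le_right (by norm_num))]
    intro k
    refine Fin.addCases (fun a => ?_) (fun a => ?_) k
    · exact ((norm_le_pi_norm (pE n m z) a).trans (hR _ hz.1)).trans (le_max_left _ _)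
    · exact ((norm_le_pi_norm (pL n m z) a).trans hz.2).trans (le_max_right _ _)

theorem levi_Ptot (β : ℝ) (i : E.ι) {z : Fin (n + m) → ℂ} (hzU : pE n m z ∈ E.U i)
    (y : Fin (r + s) → ℂ) (Y : (Fin (n + m) → ℂ) × (Fin (r + s) → ℂ)) :
    levi (Ptot D m s β i) (z, y) Y = β * levi (Mx D m s i) (z, y) Y +
      levi (fun p => Pt D m s i p + Sc n m r s p) (z, y) Y := by
  have hcM := inf_two m s (smooth_Mx D m s i) hzU y
  have hcG := inf_two m s (smooth_G D m s i) hzU y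
  have h1 : levi (fun p => β • Mx D m s i p) (z, y) Y = β • levi (Mx D m s i) (z, y) Y :=
    levi_const_smul hcM β Y
  rw [smul_eq_mul] at h1
  rw [← h1]
  have hcM' : ContDiffAt ℝ 2 (fun p => β • Mx D m s i p) (z, y) := ContDiffAt.const_smul β hcM
  exact levi_add (f := fun p => β • Mx D m s i p) (g := fun p => Pt D m s i p + Sc n m r s p)
    hcM' hcG Y

theorem exists_beta (i : E.ι) : ∃ β₀ : ℝ, 0 < β₀ ∧ ∀ β : ℝ, 0 < β → β ≤ β₀ →
    ∀ z ∈ Kbig D m i, ∀ u : Fin (r + s) → ℂ, u ≠ 0 → ∀ X, X ≠ 0 →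
      0 < levi (Ptot D m s β i) (z, u) X := by
  set T := (Fin (n + m) → ℂ) × (Fin (r + s) → ℂ) with hT
  set S : Set (T × T) := ((Kbig D m i) ×ˢ (Metric.sphere (0 : Fin (r + s) → ℂ) 1)) ×ˢ
    (Metric.sphere (0 : T) 1) with hS
  have hSc : IsCompact S := ((isCompact_Kbig D m i).prod (isCompact_sphere _ _)).prod
    (isCompact_sphere _ _)
  have hsub : S ⊆ (Dom E m s i) ×ˢ Set.univ := by
    intro q hq
    exact ⟨D.K_subset i hq.1.1.1, trivial⟩
  have hM := (continuousOn_levi (isOpen_Dom m s i)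
    ((smooth_Mx D m s i).of_le two_le_inf)).mono hsub
  have hG := (continuousOn_levi (isOpen_Dom m s i)
    ((smooth_G D m s i).of_le two_le_inf)).mono hsub
  have hGeq : ∀ z, pE n m z ∈ E.U i → ∀ (u : Fin (r + s) → ℂ) (X : T),
      levi (fun p => Pt D m s i p + Sc n m r s p) (z, u) X =
        levi (Pt D m s i) (z, u) X + levi (Sc n m r s) (z, u) X := by
    intro z hz u X
    exact levi_add (inf_two m s (smooth_Pt D m s i) hz u)
      (((smooth_Sc (n := n) m (r := r) s).of_le two_le_inf).contDiffAt) X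
  obtain ⟨β₀, hβ₀, hβ⟩ := exists_small_pos hSc hM hG
    (by
      rintro ⟨⟨z, u⟩, X⟩ hq
      change 0 ≤ levi (fun p => Pt D m s i p + Sc n m r s p) (z, u) X
      rw [hGeq z (D.K_subset i hq.1.1.1)]
      exact add_nonneg (levi_Pt_nonneg D m s i hq.1.1.1 u X) (levi_Sc_nonneg m s z u X))
    (by
      rintro ⟨⟨z, u⟩, X⟩ hq h0
      have hzK : pE n m z ∈ D.K i := hq.1.1.1
      have hzU := D.K_subset i hzK
      have hu : u ≠ 0 := by
        have : ‖u‖ = 1 := by simpa using hq.1.2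
        exact norm_ne_zero_iff.mp (by rw [this]; exact one_ne_zero)
      have hX : X ≠ 0 := by
        have : ‖X‖ = 1 := by simpa using hq.2
        exact norm_ne_zero_iff.mp (by rw [this]; exact one_ne_zero)
      change levi (fun p => Pt D m s i p + Sc n m r s p) (z, u) X = 0 at h0
      change 0 < levi (Mx D m s i) (z, u) X
      rw [hGeq z hzU] at h0
      have hp := levi_Pt_nonneg D m s i hzK u X
      have hs := levi_Sc_nonneg (n := n) m (r := r) s z u X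
      have hp0 : levi (Pt D m s i) (z, u) X = 0 := by linarith
      have hs0 : levi (Sc n m r s) (z, u) X = 0 := by linarith
      by_cases hE : pE r s u = 0
      · have hL : pL r s u ≠ 0 := fun h => hu (eq_zero_of_parts hE h)
        have h1 : X.1 = 0 := by
          by_contra h
          exact (levi_Sc_pos m s z hL (Or.inl h)).ne' hs0
        have h2 : pL r s X.2 = 0 := by
          by_contra h
          exact (levi_Sc_pos m s z hL (Or.inr h)).ne' hs0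
        have h3 : pE r s X.2 ≠ 0 := fun h => hX (Prod.ext h1 (eq_zero_of_parts h h2))
        exact levi_Mx_pos_left D m s i hzU hE hL h1 h2 h3
      · have h1 : X.1 = 0 := by
          by_contra h
          exact (levi_Pt_pos D m s i hzK hE (Or.inl h)).ne' hp0
        have h2 : pE r s X.2 = 0 := by
          by_contra h
          exact (levi_Pt_pos D m s i hzK hE (Or.inr h)).ne' hp0
        have h3 : pL r s X.2 ≠ 0 := fun h => hX (Prod.ext h1 (eq_zero_of_parts h2 h))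
        have hL : pL r s u = 0 := by
          by_contra h
          exact (levi_Sc_pos m s z h (Or.inr h3)).ne' hs0
        exact levi_Mx_pos_right D m s i hzU hE hL h1 h2 h3)
  refine ⟨β₀, hβ₀, fun β hβ0 hβle z hz u hu X hX => ?_⟩
  have hzU := D.K_subset i hz.1
  have hopen : IsOpen {z : Fin (n + m) → ℂ | pE n m z ∈ E.U i} :=
    (E.isOpen_U i).preimage (pE n m).continuous
  have hdom : Dom E m s i = {z : Fin (n + m) → ℂ | pE n m z ∈ E.U i} ×ˢ Set.univ := by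
    ext q
    simp [Dom]
  refine pos_of_unit' hopen (k := 6) (hdom ▸ smooth_Ptot D m s β i)
    (fun z hz t y => Ptot_homog D m s β i hz y t) hzU ?_ u hu X hX
  intro y hy Y hY
  have h := hβ β hβ0 hβle ((z, y), Y) ⟨⟨hz, by simpa using hy⟩, by simpa using hY⟩
  rw [levi_Ptot D m s β i hzU y Y]
  exact h

theorem shift_L (y : Fin m → ℂ) : ∃ l ∈ gaussLattice m, ‖y + l‖ ≤ 2 := by
  choose l hl hl2 using fun k => Theta.exists_lat (y k)
  refine ⟨fun k => -(l k), fun k => (hl k).neg, ?_⟩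
  rw [pi_norm_le_iff_of_nonneg (by norm_num)]
  intro k
  have h := hl2 k
  change ‖y k + -(l k)‖ ≤ 2
  rw [← sub_eq_add_neg]
  linarith

include D in
/-- **The bundle `(E ⊠ L) ⊕ (N ⊠ L)^s` is ample.** -/
theorem ext_isAmple [Finite E.ι] : (ext E m s).IsAmple := by
  choose β₀ hβ₀ hβ using fun i => exists_beta D m s i
  obtain ⟨β, hβpos, hβle⟩ : ∃ β : ℝ, 0 < β ∧ ∀ i, β ≤ β₀ i := by
    by_cases hne : Nonempty E.ι
    · obtain ⟨i0, hi0⟩ := Finite.exists_min β₀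
      exact ⟨β₀ i0, hβ₀ i0, hi0⟩
    · exact ⟨1, one_pos, fun i => absurd ⟨i⟩ hne⟩
  refine isAmple_of_P (ext E m s) 3 (by norm_num) (Ptot D m s β) ?_ ?_ ?_ ?_ ?_
  · exact fun i => smooth_Ptot D m s β i
  · exact fun i z hz u hu => Ptot_pos D m s hβpos.le i hz hu
  · exact fun i z hz u t => Ptot_homog D m s β i hz u t
  · exact fun i j l hl z hz hzl u => Ptot_compat D m s β i j hl hz hzl u
  · intro z
    obtain ⟨i, l, hl, h1⟩ := D.cover_K (pE n m z)
    obtain ⟨l', hl', h2⟩ := shift_L m (pL n m z)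
    have hmem : z + Fin.append l l' ∈ Kbig D m i := by
      refine ⟨?_, ?_⟩
      · rw [map_add, pE_append]; exact h1
      · rw [map_add, pL_append]; exact h2
    exact ⟨i, Fin.append l l', append_mem hl hl', D.K_subset i hmem.1,
      fun u hu X hX => hβ i β hβpos (hβle i) _ hmem u hu X hX⟩

end data

end Vale.Agent.P296.H354
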