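import Vale.Agent.P296.Final

/-!
# P296 (H354): the lattice `ℤ[i]ⁿ ⊂ ℂⁿ` used in the final statement
-/

namespace Vale.Agent.P296.H354

/-- The lattice `ℤ[i]ⁿ ⊂ ℂⁿ`; the quotient `ℂⁿ/ℤ[i]ⁿ` is the `n`-th power of the elliptic curve
`ℂ/ℤ[i]`, an abelian variety of dimension `n`. -/
def gaussN (n : ℕ) : Set (Fin n → ℂ) := {z | ∀ k, ∃ a b : ℤ, z k = a + b * Complex.I}

end Vale.Agent.P296.H354
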