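import Vale.Agent.P296.Bdl.B1

/-!
# P296 (H354): the bundle `(E ⊠ L) ⊕ (N ⊠ L)^s` on `X × Y`
-/

namespace Vale.Agent.P296.H354

open Complex Matrix
open scoped ContDiff ComplexOrder Topology

/-- projection to the first `n` coordinates -/
noncomputable def pE (n m : ℕ) : (Fin (n + m) → ℂ) →L[ℂ] (Fin n → ℂ) :=
  ContinuousLinearMap.pi fun k => ContinuousLinearMap.proj (Fin.castAdd m k)

/-- projection to the last `m` coordinates -/
noncomputable def pL (n m : ℕ) : (Fin (n + m) → ℂ) →L[ℂ] (Fin m → ℂ) :=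
  ContinuousLinearMap.pi fun k => ContinuousLinearMap.proj (Fin.natAdd n k)

theorem pE_apply {n m : ℕ} (z : Fin (n + m) → ℂ) (k : Fin n) : pE n m z k = z (Fin.castAdd m k) :=
  rfl

theorem pL_apply {n m : ℕ} (z : Fin (n + m) → ℂ) (k : Fin m) : pL n m z k = z (Fin.natAdd n k) :=
  rfl

theorem ext_parts {n m : ℕ} {z w : Fin (n + m) → ℂ} (h1 : pE n m z = pE n m w)
    (h2 : pL n m z = pL n m w) : z = w := by
  funext k
  refine Fin.addCases (fun i => ?_) (fun i => ?_) k
  · exact congrFun h1 i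
  · exact congrFun h2 i

theorem eq_zero_of_parts {n m : ℕ} {z : Fin (n + m) → ℂ} (h1 : pE n m z = 0)
    (h2 : pL n m z = 0) : z = 0 :=
  ext_parts (by rw [h1, map_zero]) (by rw [h2, map_zero])

theorem pE_append {n m : ℕ} (x : Fin n → ℂ) (y : Fin m → ℂ) : pE n m (Fin.append x y) = x := by
  funext k
  rw [pE_apply, Fin.append_left]

theorem pL_append {n m : ℕ} (x : Fin n → ℂ) (y : Fin m → ℂ) : pL n m (Fin.append x y) = y := by
  funext k
  rw [pL_apply, Fin.append_right]

theorem pE_mem {n m : ℕ} {l : Fin (n + m) → ℂ} (hl : l ∈ gaussLattice (n + m)) :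
    pE n m l ∈ gaussLattice n := fun k => hl (Fin.castAdd m k)

theorem pL_mem {n m : ℕ} {l : Fin (n + m) → ℂ} (hl : l ∈ gaussLattice (n + m)) :
    pL n m l ∈ gaussLattice m := fun k => hl (Fin.natAdd n k)

theorem append_mem {n m : ℕ} {x : Fin n → ℂ} {y : Fin m → ℂ} (hx : x ∈ gaussLattice n)
    (hy : y ∈ gaussLattice m) : Fin.append x y ∈ gaussLattice (n + m) := by
  intro k
  refine Fin.addCases (fun i => ?_) (fun i => ?_) k
  · rw [Fin.append_left]; exact hx i
  · rw [Fin.append_right]; exact hy i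

/-- automorphy factor of an ample line bundle on `(ℂ/ℤ[i])^m` -/
noncomputable def aut {m : ℕ} (l z : Fin m → ℂ) : ℂ :=
  exp (∑ k, Real.pi * (-(2 * I * z k * (l k).im) + (l k).im ^ 2))

/-- its weight -/
noncomputable def wt {m : ℕ} (z : Fin m → ℂ) : ℝ := ∑ k, 2 * Real.pi * (z k).im ^ 2

theorem aut_ne_zero {m : ℕ} (l z : Fin m → ℂ) : aut l z ≠ 0 := exp_ne_zero _

theorem aut_zero {m : ℕ} (z : Fin m → ℂ) : aut 0 z = 1 := by
  simp [aut]

theorem norm_aut_sq {m : ℕ} (l z : Fin m → ℂ) :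
    ‖aut l z‖ ^ 2 = Real.exp (wt (z + l) - wt z) := by
  unfold aut wt
  rw [norm_exp, ← Real.exp_nat_mul, ← Finset.sum_sub_distrib, Complex.re_sum, Finset.mul_sum]
  congr 1
  refine Finset.sum_congr rfl fun k _ => ?_
  simp only [Nat.cast_ofNat, pow_two, mul_re, ofReal_re, add_re, neg_re, re_ofNat, I_re, mul_zero,
    im_ofNat, I_im, mul_one, sub_self, zero_mul, sub_zero, mul_im, add_zero, ofReal_im, add_im,
    zero_add, zero_sub, neg_im, mul_neg, neg_zero, Pi.add_apply]
  ring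

theorem aut_add {m : ℕ} {l l' : Fin m → ℂ} (hl : l ∈ gaussLattice m) (hl' : l' ∈ gaussLattice m)
    (z : Fin m → ℂ) : aut l (z + l') * aut l' z = aut (l + l') z := by
  unfold aut
  rw [← exp_add, ← Finset.sum_add_distrib]
  have hk : ∀ k, ∃ N : ℤ, (Real.pi * (-(2 * I * (z + l') k * (l k).im) + (l k).im ^ 2) +
      Real.pi * (-(2 * I * z k * (l' k).im) + (l' k).im ^ 2) : ℂ) =
      Real.pi * (-(2 * I * z k * ((l + l') k).im) + ((l + l') k).im ^ 2) +
        N * (2 * Real.pi * I) := by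
    intro k
    obtain ⟨a, b, h⟩ := hl k
    obtain ⟨c, d, h'⟩ := hl' k
    refine ⟨-(c * b), ?_⟩
    have e1 : (l k).im = b := by rw [h]; simp
    have e2 : (l' k).im = d := by rw [h']; simp
    simp only [Pi.add_apply, Complex.add_im, e1, e2]
    rw [h']
    push_cast
    linear_combination (-2 * Real.pi * d * b) * I_sq
  choose N hN using hk
  rw [Finset.sum_congr rfl fun k _ => hN k, Finset.sum_add_distrib, ← Finset.sum_mul, exp_add]
  have : (∑ k, (N k : ℂ)) = ((∑ k, N k : ℤ) : ℂ) := by push_cast; rfl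
  rw [this, exp_int_mul_two_pi_mul_I, mul_one]

theorem differentiable_aut {m : ℕ} (l : Fin m → ℂ) : Differentiable ℂ (aut l) := by
  unfold aut
  fun_prop

/-- block matrix -/
noncomputable def blk {r s : ℕ} (A : Matrix (Fin r) (Fin r) ℂ) (c : ℂ) :
    Matrix (Fin (r + s)) (Fin (r + s)) ℂ :=
  (Matrix.fromBlocks A 0 0 (c • (1 : Matrix (Fin s) (Fin s) ℂ))).submatrix finSumFinEquiv.symm
    finSumFinEquiv.symm

theorem blk_mul {r s : ℕ} (A B : Matrix (Fin r) (Fin r) ℂ) (c d : ℂ) :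
    (blk A c * blk B d : Matrix (Fin (r + s)) (Fin (r + s)) ℂ) = blk (A * B) (c * d) := by
  unfold blk
  rw [Matrix.submatrix_mul_equiv, Matrix.fromBlocks_multiply]
  congr 2 <;> simp [smul_smul, mul_comm]

theorem blk_one {r s : ℕ} :
    (blk (1 : Matrix (Fin r) (Fin r) ℂ) 1 : Matrix (Fin (r + s)) (Fin (r + s)) ℂ) = 1 := by
  unfold blk
  rw [one_smul, Matrix.fromBlocks_one, Matrix.submatrix_one_equiv]

theorem blk_ll {r s : ℕ} (A : Matrix (Fin r) (Fin r) ℂ) (c : ℂ) (i j : Fin r) :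
    (blk A c : Matrix (Fin (r + s)) (Fin (r + s)) ℂ) (Fin.castAdd s i) (Fin.castAdd s j) =
      A i j := by
  simp [blk]

theorem blk_lr {r s : ℕ} (A : Matrix (Fin r) (Fin r) ℂ) (c : ℂ) (i : Fin r) (j : Fin s) :
    (blk A c : Matrix (Fin (r + s)) (Fin (r + s)) ℂ) (Fin.castAdd s i) (Fin.natAdd r j) = 0 := by
  simp [blk]

theorem blk_rl {r s : ℕ} (A : Matrix (Fin r) (Fin r) ℂ) (c : ℂ) (i : Fin s) (j : Fin r) :
    (blk A c : Matrix (Fin (r + s)) (Fin (r + s)) ℂ) (Fin.natAdd r i) (Fin.castAdd s j) = 0 := by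
  simp [blk]

theorem blk_rr {r s : ℕ} (A : Matrix (Fin r) (Fin r) ℂ) (c : ℂ) (i j : Fin s) :
    (blk A c : Matrix (Fin (r + s)) (Fin (r + s)) ℂ) (Fin.natAdd r i) (Fin.natAdd r j) =
      c * (1 : Matrix (Fin s) (Fin s) ℂ) i j := by
  simp [blk]

theorem pE_vecMul_blk {r s : ℕ} (A : Matrix (Fin r) (Fin r) ℂ) (c : ℂ) (u : Fin (r + s) → ℂ) :
    pE r s (u ᵥ* blk A c) = pE r s u ᵥ* A := by
  funext j
  rw [pE_apply]
  simp only [Matrix.vecMul, dotProduct]
  rw [Fin.sum_univ_add]
  simp only [blk_ll, blk_rl, mul_zero, Finset.sum_const_zero, add_zero, pE_apply]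

theorem pL_vecMul_blk {r s : ℕ} (A : Matrix (Fin r) (Fin r) ℂ) (c : ℂ) (u : Fin (r + s) → ℂ) :
    pL r s (u ᵥ* blk A c) = c • pL r s u := by
  funext j
  rw [pL_apply]
  simp only [Matrix.vecMul, dotProduct]
  rw [Fin.sum_univ_add]
  simp only [blk_lr, blk_rr, mul_zero, Finset.sum_const_zero, zero_add, Matrix.one_apply,
    mul_ite, mul_one, Pi.smul_apply, pL_apply, smul_eq_mul]
  rw [Finset.sum_ite_eq' Finset.univ j]
  simp [mul_comm]

variable {n r : ℕ}

/-- the bundle `(E ⊠ L) ⊕ (N ⊠ L)^s` -/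
noncomputable def ext (E : TorusBundle (gaussLattice n) r) (m s : ℕ) :
    TorusBundle (gaussLattice (n + m)) (r + s) where
  ι := E.ι
  U := fun i => {z | pE n m z ∈ E.U i}
  isOpen_U := fun i => (E.isOpen_U i).preimage (pE n m).continuous
  cover := by
    intro z
    obtain ⟨i, l, hl, h⟩ := E.cover (pE n m z)
    refine ⟨i, Fin.append l 0, append_mem hl (zero_mem _), ?_⟩
    change pE n m (z + _) ∈ E.U i
    rw [map_add, pE_append]
    exact h
  g := fun i j l z => blk (aut (pL n m l) (pL n m z) • E.g i j (pE n m l) (pE n m z)) (aut l z)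
  holo := by
    intro i j l hl a b
    have h1 : Differentiable ℂ fun z : Fin (n + m) → ℂ => aut (pL n m l) (pL n m z) :=
      (differentiable_aut _).comp (pL n m).differentiable
    have h2 : Differentiable ℂ fun z : Fin (n + m) → ℂ => aut l z := differentiable_aut l
    refine Fin.addCases (fun i' => ?_) (fun i' => ?_) a <;>
      refine Fin.addCases (fun j' => ?_) (fun j' => ?_) b
    · simp only [blk_ll, Matrix.smul_apply, smul_eq_mul]
      refine h1.differentiableOn.mul ?_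
      refine (E.holo i j (pE n m l) (pE_mem hl) i' j').comp
        (g := fun z => E.g i j (pE n m l) z i' j') (f := pE n m)
        (pE n m).differentiable.differentiableOn ?_
      intro z hz
      refine ⟨hz.1, ?_⟩
      have := hz.2
      rwa [Set.mem_ofPred_eq, map_add] at this
    · simp only [blk_lr]
      exact differentiableOn_const _
    · simp only [blk_rl]
      exact differentiableOn_const _
    · simp only [blk_rr]
      exact h2.differentiableOn.mul (differentiableOn_const _)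
  g_self := by
    intro i z hz
    rw [map_zero, map_zero, aut_zero, one_smul, aut_zero, E.g_self i _ hz, blk_one]
  cocycle := by
    intro i j k l hl l' hl' z hz h1 h2
    rw [Set.mem_ofPred_eq] at hz h1 h2
    rw [map_add] at h1
    rw [map_add, map_add] at h2
    rw [blk_mul, aut_add hl hl', Matrix.smul_mul, Matrix.mul_smul, smul_smul, map_add, map_add,
      map_add, map_add, aut_add (pL_mem hl) (pL_mem hl'),
      E.cocycle i j k _ (pE_mem hl) _ (pE_mem hl') _ hz h1 h2]

end Vale.Agent.P296.H354
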