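import Vale.Agent.P296.Bdl.B1

/-!
# P296 (H354): an explicit Hermitian metric on the dual of the rank two bundle
-/

namespace Vale.Agent.P296.H354

open Complex Matrix Theta
open scoped ContDiff ComplexOrder Topology
open Vale.Agent.P296 Vale.Agent.P296.Compat

/-- `|g₀|² e^{φ₁} + |g₁|² e^{φ₋₁} + |δ g₂|² e^{φ₁ - φ_D} + |δ g₃|² e^{φ₋₁ - φ_D}` -/
noncomputable def QG (z : Fin 2 → ℂ) (δ g0 g1 g2 g3 : ℂ) : ℝ :=
  ‖g0‖ ^ 2 * Real.exp (phi 1 z) + ‖g1‖ ^ 2 * Real.exp (phi (-1) z) +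
    ‖δ * g2‖ ^ 2 * Real.exp (phi 1 z - phiD z) + ‖δ * g3‖ ^ 2 * Real.exp (phi (-1) z - phiD z)

theorem QG_auto {l z : Fin 2 → ℂ} {e1 e2 δ δ' : ℂ} (g0 g1 g2 g3 : ℂ) {H : ℝ}
    (h1 : ‖e1‖ ^ 2 = Real.exp (phi 1 (z + l) - phi 1 z))
    (h2 : ‖e2‖ ^ 2 = Real.exp (phi (-1) (z + l) - phi (-1) z))
    (hδ : ‖δ‖ ^ 2 = H * Real.exp (phiD z)) (hδ' : ‖δ'‖ ^ 2 = H * Real.exp (phiD (z + l))) :
    QG z δ (e1 * g0) (e2 * g1) (e1 * g2) (e2 * g3) = QG (z + l) δ' g0 g1 g2 g3 := by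
  have t0 := term_auto (g := g0) 1 0 0 h1 h2 hδ hδ'
  have t1 := term_auto (g := g1) 0 1 0 h1 h2 hδ hδ'
  have t2 := term_auto (g := g2) 1 0 1 h1 h2 hδ hδ'
  have t3 := term_auto (g := g3) 0 1 1 h1 h2 hδ hδ'
  simp only [pow_zero, pow_one, one_mul, mul_one, Nat.cast_one, zero_mul, add_zero,
    zero_add, sub_zero, CharP.cast_eq_zero] at t0 t1 t2 t3
  unfold QG
  rw [t0, t1, t2, t3]

theorem QG_homog (z : Fin 2 → ℂ) (t δ g0 g1 g2 g3 : ℂ) :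
    QG z δ (t * g0) (t * g1) (t * g2) (t * g3) = ‖t‖ ^ 2 * QG z δ g0 g1 g2 g3 := by
  unfold QG
  simp only [norm_mul, mul_pow]
  ring

theorem QG_scale (z : Fin 2 → ℂ) {δ δ0 s g0 g1 g2 g3 : ℂ} (hd : δ * s = δ0) :
    QG z δ g0 g1 (s * g2) (s * g3) = QG z δ0 g0 g1 g2 g3 := by
  unfold QG
  rw [← mul_assoc, ← mul_assoc, hd]

theorem QG_nonneg (z : Fin 2 → ℂ) (δ g0 g1 g2 g3 : ℂ) : 0 ≤ QG z δ g0 g1 g2 g3 := by
  unfold QG
  positivity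

theorem QG_pos0 (z : Fin 2 → ℂ) {δ g0 g1 g2 g3 : ℂ} (h : g0 ≠ 0) : 0 < QG z δ g0 g1 g2 g3 := by
  have := norm_pos_iff.mpr h
  unfold QG
  positivity

theorem QG_pos1 (z : Fin 2 → ℂ) {δ g0 g1 g2 g3 : ℂ} (h : g1 ≠ 0) : 0 < QG z δ g0 g1 g2 g3 := by
  have := norm_pos_iff.mpr h
  unfold QG
  positivity

theorem QG_pos2 (z : Fin 2 → ℂ) {δ g0 g1 g2 g3 : ℂ} (hδ : δ ≠ 0) (h : g2 ≠ 0) :
    0 < QG z δ g0 g1 g2 g3 := by
  have := norm_pos_iff.mpr (mul_ne_zero hδ h)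
  unfold QG
  positivity

theorem QG_pos3 (z : Fin 2 → ℂ) {δ g0 g1 g2 g3 : ℂ} (hδ : δ ≠ 0) (h : g3 ≠ 0) :
    0 < QG z δ g0 g1 g2 g3 := by
  have := norm_pos_iff.mpr (mul_ne_zero hδ h)
  unfold QG
  positivity

/-- chart 0 -/
noncomputable def Q0 (p : (Fin 2 → ℂ) × (Fin 2 → ℂ)) : ℝ :=
  QG p.1 (del (p.1 0)) (p.2 0) (p.2 1) (p.2 0) (p.2 1)

/-- chart 1 -/
noncomputable def Q1 (ε : ℝ) (p : (Fin 2 → ℂ) × (Fin 2 → ℂ)) : ℝ :=
  QG p.1 (del1 (p.1 0))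
    ((p.2 0 - mfun 1 (p.1 0) (p.1 1) * (p.1 0 * p.2 0 - ε * p.2 1)) / ε)
    (p.2 0 - ε * mfun (-1) (p.1 0) (p.1 1) * p.2 1) (p.2 1) (p.1 0 * p.2 0 - ε * p.2 1)

/-- chart 2 -/
noncomputable def Q2 (ε : ℝ) (p : (Fin 2 → ℂ) × (Fin 2 → ℂ)) : ℝ :=
  QG p.1 (del2 (p.1 0)) (p.2 0 - ε * mfun 1 (p.1 0 - 1 / 2) (p.1 1) * p.2 1)
    ((p.2 0 - mfun (-1) (p.1 0 - 1 / 2) (p.1 1) * ((p.1 0 - 1 / 2) * p.2 0 - ε * p.2 1)) / ε)
    ((p.1 0 - 1 / 2) * p.2 0 - ε * p.2 1) (p.2 1)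

noncomputable def QQi (ε : ℝ) : Fin 3 → (Fin 2 → ℂ) × (Fin 2 → ℂ) → ℝ := ![Q0, Q1 ε, Q2 ε]

theorem Q1_away {ε : ℝ} (hε : ε ≠ 0) {z : Fin 2 → ℂ} (hz : 1 / 10 < ‖z 0‖) (c : Fin 2 → ℂ) :
    Q1 ε (z, c ᵥ* Wm ε 1 z) = Q0 (z, c) := by
  have h0 : z 0 ≠ 0 := by
    intro h; rw [h, norm_zero] at hz; norm_num at hz
  have hεc : (ε : ℂ) ≠ 0 := by exact_mod_cast hε
  unfold Q1 Q0
  simp only [Wm1_0, Wm1_1]
  rw [mfun_away hz, mfun_away hz, ← QG_scale z (del1_mul (z 0))]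
  congr 1
  · field_simp; ring
  · field_simp; ring
  · ring

theorem Q2_away {ε : ℝ} (hε : ε ≠ 0) {z : Fin 2 → ℂ} (hz : 1 / 10 < ‖z 0 - 1 / 2‖)
    (c : Fin 2 → ℂ) : Q2 ε (z, c ᵥ* Wm ε 2 z) = Q0 (z, c) := by
  have h0 : z 0 - 1 / 2 ≠ 0 := by
    intro h; rw [h, norm_zero] at hz; norm_num at hz
  have hεc : (ε : ℂ) ≠ 0 := by exact_mod_cast hε
  unfold Q2 Q0
  simp only [Wm2_0, Wm2_1]
  rw [mfun_away hz, mfun_away hz, ← QG_scale z (del2_mul (z 0))]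
  generalize z 0 - 1 / 2 = s' at *
  congr 1
  · field_simp; ring
  · field_simp; ring
  · ring

theorem qcore0 {l : Fin 2 → ℂ} (hl : l ∈ gaussLattice 2) (z c : Fin 2 → ℂ) :
    Q0 (z, c ᵥ* Dm l z) = Q0 (z + l, c) := by
  unfold Q0
  simp only [Dm_0, Dm_1]
  exact QG_auto _ _ _ _ (norm_eAut_sq 1 l z) (norm_eAut_sq (-1) l z) (norm_del_sq z)
    (norm_del_sq' hl)

theorem qcompat_00 {ε : ℝ} {l : Fin 2 → ℂ} (hl : l ∈ gaussLattice 2)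
    (z u : Fin 2 → ℂ) : Q0 (z, u ᵥ* gmat ε 0 0 l z) = Q0 (z + l, u) := by
  rw [gmat_00]
  exact qcore0 hl z u

theorem qcompat_01 {ε : ℝ} (hε : 0 < ε) {l z : Fin 2 → ℂ}
    (hl : l ∈ gaussLattice 2) (hzl : z + l ∈ Uset 0) (u : Fin 2 → ℂ) :
    Q1 ε (z, u ᵥ* gmat ε 0 1 l z) = Q0 (z + l, u) := by
  rw [gmat_01, Q1_away hε.ne' (away1 hl hzl)]
  exact qcore0 hl z u

theorem qcompat_02 {ε : ℝ} (hε : 0 < ε) {l z : Fin 2 → ℂ}
    (hl : l ∈ gaussLattice 2) (hzl : z + l ∈ Uset 0) (u : Fin 2 → ℂ) :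
    Q2 ε (z, u ᵥ* gmat ε 0 2 l z) = Q0 (z + l, u) := by
  rw [gmat_02, Q2_away hε.ne' (away2 hl hzl)]
  exact qcore0 hl z u

theorem qcompat_10 {ε : ℝ} (hε : 0 < ε) {l z : Fin 2 → ℂ}
    (hl : l ∈ gaussLattice 2) (hz : z ∈ Uset 0) (u : Fin 2 → ℂ) :
    Q0 (z, u ᵥ* gmat ε 1 0 l z) = Q1 ε (z + l, u) := by
  have h := away1' hl hz
  have hdet : (Wm ε 1 (z + l)).det ≠ 0 := by
    rw [det_Wm1, neg_ne_zero]
    intro h'; rw [h', norm_zero] at h; norm_num at h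
  rw [gmat_10, qcore0 hl, ← Q1_away hε.ne' h, vecMul_inv_cancel _ hdet]

theorem qcompat_20 {ε : ℝ} (hε : 0 < ε) {l z : Fin 2 → ℂ}
    (hl : l ∈ gaussLattice 2) (hz : z ∈ Uset 0) (u : Fin 2 → ℂ) :
    Q0 (z, u ᵥ* gmat ε 2 0 l z) = Q2 ε (z + l, u) := by
  have h := away2' hl hz
  have hdet : (Wm ε 2 (z + l)).det ≠ 0 := by
    rw [det_Wm2]
    intro h'; rw [h', norm_zero] at h; norm_num at h
  rw [gmat_20, qcore0 hl, ← Q2_away hε.ne' h, vecMul_inv_cancel _ hdet]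

theorem qalg11 (z : Fin 2 → ℂ) {ε' s m M1 M1' M2 M2' e1 e2 A b δ : ℂ} (hε : ε' ≠ 0)
    (hr : e1 = e2 * (1 + s * m))
    (k1 : (1 + s * m) * M1' = M1 + m) (k2 : M2' = (1 + s * m) * M2 - m) :
    QG z δ ((e2 * (A + ε' * m * b) - M1 * (s * (e2 * (A + ε' * m * b)) - ε' * (e1 * b))) / ε')
      (e2 * (A + ε' * m * b) - ε' * M2 * (e1 * b)) (e1 * b)
      (s * (e2 * (A + ε' * m * b)) - ε' * (e1 * b))
    = QG z δ (e1 * ((A - M1' * (s * A - ε' * b)) / ε')) (e2 * (A - ε' * M2' * b)) (e1 * b)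
      (e2 * (s * A - ε' * b)) := by
  have L : s * (e2 * (A + ε' * m * b)) - ε' * (e1 * b) = e2 * (s * A - ε' * b) := by
    rw [hr]; ring
  have C1 : (e2 * (A + ε' * m * b) - M1 * (e2 * (s * A - ε' * b))) / ε'
      = e1 * ((A - M1' * (s * A - ε' * b)) / ε') := by
    have hM : M1 = (1 + s * m) * M1' - m := by linear_combination -k1
    rw [hr, hM]; field_simp; ring
  have C2 : e2 * (A + ε' * m * b) - ε' * M2 * (e1 * b) = e2 * (A - ε' * M2' * b) := by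
    rw [hr, k2]; ring
  rw [L, C1, C2]

theorem qalg22 (z : Fin 2 → ℂ) {ε' s m M1 M1' M2 M2' e1 e2 A b δ : ℂ} (hε : ε' ≠ 0)
    (hr : e2 = e1 * (1 + s * m))
    (k1 : M1' = (1 + s * m) * M1 - m) (k2 : (1 + s * m) * M2' = M2 + m) :
    QG z δ (e1 * (A + ε' * m * b) - ε' * M1 * (e2 * b))
      ((e1 * (A + ε' * m * b) - M2 * (s * (e1 * (A + ε' * m * b)) - ε' * (e2 * b))) / ε')
      (s * (e1 * (A + ε' * m * b)) - ε' * (e2 * b)) (e2 * b)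
    = QG z δ (e1 * (A - ε' * M1' * b)) (e2 * ((A - M2' * (s * A - ε' * b)) / ε'))
      (e1 * (s * A - ε' * b)) (e2 * b) := by
  have L : s * (e1 * (A + ε' * m * b)) - ε' * (e2 * b) = e1 * (s * A - ε' * b) := by
    rw [hr]; ring
  have C2 : (e1 * (A + ε' * m * b) - M2 * (e1 * (s * A - ε' * b))) / ε'
      = e2 * ((A - M2' * (s * A - ε' * b)) / ε') := by
    have hM : M2 = (1 + s * m) * M2' - m := by linear_combination -k2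
    rw [hr, hM]; field_simp; ring
  have C1 : e1 * (A + ε' * m * b) - ε' * M1 * (e2 * b) = e1 * (A - ε' * M1' * b) := by
    rw [hr, k1]; ring
  rw [L, C1, C2]

theorem qcompat_11 {ε : ℝ} (hε : 0 < ε) {l z : Fin 2 → ℂ}
    (hl : l ∈ gaussLattice 2) (hz : z ∈ Uset 1) (hzl : z + l ∈ Uset 1) (u : Fin 2 → ℂ) :
    Q1 ε (z, u ᵥ* gmat ε 1 1 l z) = Q1 ε (z + l, u) := by
  have h0 := l0_zero1 hl hz hzl
  have hεc : (ε : ℂ) ≠ 0 := by exact_mod_cast hε.ne'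
  have hs : (z + l) 0 = z 0 := by
    show z 0 + l 0 = z 0
    rw [h0, add_zero]
  have ht : (z + l) 1 = z 1 + l 1 := rfl
  unfold Q1
  simp only []
  rw [gmat_11_0, gmat_11_1, hs, ht]
  have hδ := norm_sq_exp (del1 (z 0)) (phiD z)
  have hδ' : ‖del1 (z 0)‖ ^ 2 = (‖del1 (z 0)‖ ^ 2 * Real.exp (-(phiD z)))
      * Real.exp (phiD (z + l)) := by rw [phiD_add h0]; exact hδ
  have h1 := norm_eAut_sq 1 l z
  have h2 := norm_eAut_sq (-1) l z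
  have hr : eAut 1 l z = eAut (-1) l z *
      (1 + z 0 * expm (-(12 * Real.pi * I * (l 1).im)) (z 0)) := by
    rw [expm_mul, add_sub_cancel]; exact eAut_ratio h0
  have k1 := mfun_rel2 1 (z 0) (z 1) (l 1)
  have k2 := mfun_rel (-1) (z 0) (z 1) (l 1)
  have c1 : (12 * (Real.pi : ℂ) * I * ((1 : ℝ) : ℂ) * (l 1).im) = 12 * Real.pi * I * (l 1).im := by
    push_cast; ring
  have c2 : (12 * (Real.pi : ℂ) * I * ((-1 : ℝ) : ℂ) * (l 1).im)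
      = -(12 * Real.pi * I * (l 1).im) := by
    push_cast; ring
  rw [c1] at k1
  rw [c2] at k2
  rw [qalg11 z hεc hr k1 k2]
  exact QG_auto _ _ _ _ h1 h2 hδ hδ'

theorem qcompat_22 {ε : ℝ} (hε : 0 < ε) {l z : Fin 2 → ℂ}
    (hl : l ∈ gaussLattice 2) (hz : z ∈ Uset 2) (hzl : z + l ∈ Uset 2) (u : Fin 2 → ℂ) :
    Q2 ε (z, u ᵥ* gmat ε 2 2 l z) = Q2 ε (z + l, u) := by
  have h0 := l0_zero2 hl hz hzl
  have hεc : (ε : ℂ) ≠ 0 := by exact_mod_cast hε.ne'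
  have hs : (z + l) 0 = z 0 := by
    show z 0 + l 0 = z 0
    rw [h0, add_zero]
  have ht : (z + l) 1 = z 1 + l 1 := rfl
  unfold Q2
  simp only []
  rw [gmat_22_0, gmat_22_1, hs, ht]
  have hδ := norm_sq_exp (del2 (z 0)) (phiD z)
  have hδ' : ‖del2 (z 0)‖ ^ 2 = (‖del2 (z 0)‖ ^ 2 * Real.exp (-(phiD z)))
      * Real.exp (phiD (z + l)) := by rw [phiD_add h0]; exact hδ
  have h1 := norm_eAut_sq 1 l z
  have h2 := norm_eAut_sq (-1) l z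
  have hr : eAut (-1) l z = eAut 1 l z *
      (1 + (z 0 - 1 / 2) * expm (12 * Real.pi * I * (l 1).im) (z 0 - 1 / 2)) := by
    rw [expm_mul, add_sub_cancel]; exact eAut_ratio' hl h0
  have k1 := mfun_rel 1 (z 0 - 1 / 2) (z 1) (l 1)
  have k2 := mfun_rel2 (-1) (z 0 - 1 / 2) (z 1) (l 1)
  have c1 : (12 * (Real.pi : ℂ) * I * ((1 : ℝ) : ℂ) * (l 1).im) = 12 * Real.pi * I * (l 1).im := by
    push_cast; ring
  have c2 : -(12 * (Real.pi : ℂ) * I * ((-1 : ℝ) : ℂ) * (l 1).im)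
      = 12 * Real.pi * I * (l 1).im := by
    push_cast; ring
  rw [c1] at k1
  rw [c2] at k2
  rw [qalg22 z hεc hr k1 k2]
  exact QG_auto _ _ _ _ h1 h2 hδ hδ'

theorem QQi_compat {ε : ℝ} (hε : 0 < ε) (i j : Fin 3) {l z : Fin 2 → ℂ}
    (hl : l ∈ gaussLattice 2) (hz : z ∈ Uset j) (hzl : z + l ∈ Uset i) (u : Fin 2 → ℂ) :
    QQi ε j (z, u ᵥ* gmat ε i j l z) = QQi ε i (z + l, u) := by
  fin_cases i <;> fin_cases j
  · exact qcompat_00 hl z u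
  · exact qcompat_01 hε hl hzl u
  · exact qcompat_02 hε hl hzl u
  · exact qcompat_10 hε hl hz u
  · exact qcompat_11 hε hl hz hzl u
  · exact (Compat.not_12 hl hz hzl).elim
  · exact qcompat_20 hε hl hz u
  · exact (Compat.not_21 hl hz hzl).elim
  · exact qcompat_22 hε hl hz hzl u

theorem QQi_homog (ε : ℝ) (i : Fin 3) (z u : Fin 2 → ℂ) (t : ℂ) :
    QQi ε i (z, t • u) = ‖t‖ ^ 2 * QQi ε i (z, u) := by
  fin_cases i
  · show Q0 (z, t • u) = ‖t‖ ^ 2 * Q0 (z, u)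
    unfold Q0
    rw [← QG_homog]
    rfl
  · show Q1 ε (z, t • u) = ‖t‖ ^ 2 * Q1 ε (z, u)
    unfold Q1
    rw [← QG_homog]
    simp only [Pi.smul_apply, smul_eq_mul]
    congr 1 <;> ring
  · show Q2 ε (z, t • u) = ‖t‖ ^ 2 * Q2 ε (z, u)
    unfold Q2
    rw [← QG_homog]
    simp only [Pi.smul_apply, smul_eq_mul]
    congr 1 <;> ring

theorem QQi_pos {ε : ℝ} (_hε : 0 < ε) (i : Fin 3) :
    ∀ z ∈ Uset i, ∀ u, u ≠ 0 → 0 < QQi ε i (z, u) := by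
  intro z hz u hu
  have hu2 := ne_zero_two hu
  fin_cases i
  · show 0 < Q0 (z, u)
    unfold Q0
    by_cases h : u 0 = 0
    · exact QG_pos1 z fun h' => hu2 ⟨h, h'⟩
    · exact QG_pos0 z h
  · show 0 < Q1 ε (z, u)
    unfold Q1
    by_cases h : u 1 = 0
    · apply QG_pos1 z
      simp only [h, mul_zero, sub_zero]
      exact fun h' => hu2 ⟨h', h⟩
    · exact QG_pos2 z (del1_ne hz) h
  · show 0 < Q2 ε (z, u)
    unfold Q2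
    by_cases h : u 1 = 0
    · apply QG_pos0 z
      simp only [h, mul_zero, sub_zero]
      exact fun h' => hu2 ⟨h', h⟩
    · exact QG_pos3 z (del2_ne hz) h

theorem smooth_QG {E : Type*} [NormedAddCommGroup E] [NormedSpace ℝ E]
    {f : E → Fin 2 → ℂ} {δ g0 g1 g2 g3 : E → ℂ} (hf : ContDiff ℝ ∞ f) (hδ : ContDiff ℝ ∞ δ)
    (h0 : ContDiff ℝ ∞ g0) (h1 : ContDiff ℝ ∞ g1) (h2 : ContDiff ℝ ∞ g2) (h3 : ContDiff ℝ ∞ g3) :
    ContDiff ℝ ∞ (fun p => QG (f p) (δ p) (g0 p) (g1 p) (g2 p) (g3 p)) := by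
  have him : ∀ j, ContDiff ℝ ∞ (fun p => (f p j).im) := fun j =>
    Complex.imCLM.contDiff.comp ((contDiff_pi.mp hf) j)
  have hphi : ∀ σ : ℝ, ContDiff ℝ ∞ (fun p => phi σ (f p)) := by
    intro σ
    unfold phi
    exact contDiff_const.mul (((contDiff_const.mul ((him 0).pow 2)).add
      ((contDiff_const.mul (him 0)).mul (him 1))).add (contDiff_const.mul ((him 1).pow 2)))
  have hD : ContDiff ℝ ∞ (fun p => phiD (f p)) := by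
    unfold phiD
    exact (contDiff_const.mul ((him 0).pow 2)).sub (contDiff_const.mul (him 0))
  unfold QG
  exact ((((h0.norm_sq ℝ).mul (hphi 1).exp).add ((h1.norm_sq ℝ).mul (hphi (-1)).exp)).add
    (((hδ.mul h2).norm_sq ℝ).mul ((hphi 1).sub hD).exp)).add
    (((hδ.mul h3).norm_sq ℝ).mul ((hphi (-1)).sub hD).exp)

theorem smooth_Q0 : ContDiff ℝ ∞ Q0 := by
  have ha := smooth_snd 0
  have hb := smooth_snd 1
  exact smooth_QG contDiff_fst (smooth_del.comp (smooth_fst 0)) ha hb ha hb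

theorem smooth_Q1 (ε : ℝ) : ContDiff ℝ ∞ (Q1 ε) := by
  have ha := smooth_snd 0
  have hb := smooth_snd 1
  have hs := smooth_fst 0
  have ht := smooth_fst 1
  have hc : ContDiff ℝ ∞ (fun _ : (Fin 2 → ℂ) × (Fin 2 → ℂ) => (ε : ℂ)) := contDiff_const
  have hl := (hs.mul ha).sub (hc.mul hb)
  have hc1 := (ha.sub ((smooth_mfun 1 hs ht).mul hl)).div_const (ε : ℂ)
  have hc2 := ha.sub ((hc.mul (smooth_mfun (-1) hs ht)).mul hb)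
  exact smooth_QG contDiff_fst (smooth_del1.comp hs) hc1 hc2 hb hl

theorem smooth_Q2 (ε : ℝ) : ContDiff ℝ ∞ (Q2 ε) := by
  have ha := smooth_snd 0
  have hb := smooth_snd 1
  have hs := smooth_fst 0
  have hs' : ContDiff ℝ ∞ (fun p : (Fin 2 → ℂ) × (Fin 2 → ℂ) => p.1 0 - 1 / 2) :=
    hs.sub contDiff_const
  have ht := smooth_fst 1
  have hc : ContDiff ℝ ∞ (fun _ : (Fin 2 → ℂ) × (Fin 2 → ℂ) => (ε : ℂ)) := contDiff_const
  have hl := (hs'.mul ha).sub (hc.mul hb)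
  have hc1 := ha.sub ((hc.mul (smooth_mfun 1 hs' ht)).mul hb)
  have hc2 := (ha.sub ((smooth_mfun (-1) hs' ht).mul hl)).div_const (ε : ℂ)
  exact smooth_QG contDiff_fst (smooth_del2.comp hs) hc1 hc2 hl hb

theorem QQi_smooth (ε : ℝ) (i : Fin 3) : ContDiff ℝ ∞ (QQi ε i) := by
  fin_cases i
  · exact smooth_Q0
  · exact smooth_Q1 ε
  · exact smooth_Q2 ε

end Vale.Agent.P296.H354
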