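import Vale.Agent.P296.H354.Amp
import Vale.Agent.P296.H354.Herm

/-!
# P296 (H354): the ampleness data of the rank two bundle
-/

namespace Vale.Agent.P296.H354

open Complex Matrix Theta
open scoped ContDiff ComplexOrder Topology
open Vale.Agent.P296

/-- slightly larger compact sets -/
def L1 : Set (Fin 2 → ℂ) := {z | ‖z 0‖ ≤ 3 / 20 ∧ ‖z 1‖ ≤ 2}
def L2 : Set (Fin 2 → ℂ) := {z | ‖z 0 - 1 / 2‖ ≤ 3 / 20 ∧ ‖z 1‖ ≤ 2}
def L0 : Set (Fin 2 → ℂ) := {z | (3 / 20 ≤ Metric.infDist (z 0) Lset ∧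
  3 / 20 ≤ Metric.infDist (z 0 - 1 / 2) Lset) ∧ ‖z‖ ≤ 2}

theorem isCompact_L1 : IsCompact L1 := by
  apply Metric.isCompact_of_isClosed_isBounded
  · have h1 : IsClosed {z : Fin 2 → ℂ | ‖z 0‖ ≤ 3 / 20} :=
      isClosed_le (by fun_prop) continuous_const
    have h2 : IsClosed {z : Fin 2 → ℂ | ‖z 1‖ ≤ 2} := isClosed_le (by fun_prop) continuous_const
    exact h1.inter h2
  · rw [isBounded_iff_forall_norm_le]
    refine ⟨2, fun z hz => ?_⟩
    rw [pi_norm_le_iff_of_nonneg (by norm_num)]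
    intro k
    fin_cases k
    · exact hz.1.trans (by norm_num)
    · exact hz.2

theorem isCompact_L2 : IsCompact L2 := by
  apply Metric.isCompact_of_isClosed_isBounded
  · have h1 : IsClosed {z : Fin 2 → ℂ | ‖z 0 - 1 / 2‖ ≤ 3 / 20} :=
      isClosed_le (by fun_prop) continuous_const
    have h2 : IsClosed {z : Fin 2 → ℂ | ‖z 1‖ ≤ 2} := isClosed_le (by fun_prop) continuous_const
    exact h1.inter h2
  · rw [isBounded_iff_forall_norm_le]
    refine ⟨2, fun z hz => ?_⟩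
    rw [pi_norm_le_iff_of_nonneg (by norm_num)]
    intro k
    fin_cases k
    · have h1 := hz.1
      have h2 : ‖z 0‖ ≤ ‖z 0 - 1 / 2‖ + ‖(1 / 2 : ℂ)‖ := by
        have := norm_add_le (z 0 - 1 / 2) (1 / 2)
        rwa [sub_add_cancel] at this
      have h3 : ‖(1 / 2 : ℂ)‖ = 1 / 2 := by norm_num
      simp only [Fin.zero_eta]
      linarith only [h1, h2, h3]
    · exact hz.2

theorem isCompact_L0 : IsCompact L0 := by
  apply Metric.isCompact_of_isClosed_isBounded
  · have c1 : IsClosed {z : Fin 2 → ℂ | 3 / 20 ≤ Metric.infDist (z 0) Lset} :=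
      isClosed_le continuous_const
        ((Metric.continuous_infDist_pt Lset).comp (by fun_prop : Continuous fun z : Fin 2 → ℂ => z 0))
    have c2 : IsClosed {z : Fin 2 → ℂ | 3 / 20 ≤ Metric.infDist (z 0 - 1 / 2) Lset} :=
      isClosed_le continuous_const
        ((Metric.continuous_infDist_pt Lset).comp
          (by fun_prop : Continuous fun z : Fin 2 → ℂ => z 0 - 1 / 2))
    have c3 : IsClosed {z : Fin 2 → ℂ | ‖z‖ ≤ 2} := isClosed_le continuous_norm continuous_const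
    exact (c1.inter c2).inter c3
  · rw [isBounded_iff_forall_norm_le]
    exact ⟨2, fun z hz => hz.2⟩

theorem L1_subset : L1 ⊆ Om1 := fun z hz => lt_of_le_of_lt hz.1 (by norm_num)

theorem L2_subset : L2 ⊆ Om2 := fun z hz => lt_of_le_of_lt hz.1 (by norm_num)

theorem L0_subset : L0 ⊆ Uset 0 := fun z hz =>
  ⟨lt_of_lt_of_le (by norm_num) hz.1.1, lt_of_lt_of_le (by norm_num) hz.1.2⟩

/-- the choice of the constants -/
theorem exists_B' {ε : ℝ} (hε : 0 < ε) : ∃ B : Fin 4 → ℝ, (∀ k, 0 < B k) ∧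
    (∀ z ∈ L1, ∀ u : Fin 2 → ℂ, u ≠ 0 → ∀ X, X ≠ 0 → 0 < levi (PP1 ε B) (z, u) X) ∧
    (∀ z ∈ L2, ∀ u : Fin 2 → ℂ, u ≠ 0 → ∀ X, X ≠ 0 → 0 < levi (PP2 ε B) (z, u) X) := by
  obtain ⟨B, hB, g1, g2⟩ := flag_two isOpen_Om1 isCompact_L1 L1_subset isOpen_Om2
    isCompact_L2 L2_subset contDiff_om om_levi_pos (R1_smooth ε) (R2_smooth ε)
    (cc1_pos hε) (cc2_pos hε)
  refine ⟨B, hB, ?_, ?_⟩
  · intro z hz u hu X hX
    exact g1.comp_pos isOpen_Om1 L1_subset (contDiff_Y1 ε) hz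
      (Y1_ne_zero hε (L1_subset hz) hu) (Y1_inj hε (L1_subset hz) hu)
      (fun p hp => PP1_eq hε B p hp) hX
  · intro z hz u hu X hX
    exact g2.comp_pos isOpen_Om2 L2_subset (contDiff_Y2 ε) hz
      (Y2_ne_zero hε (L2_subset hz) hu) (Y2_inj hε (L2_subset hz) hu)
      (fun p hp => PP2_eq hε B p hp) hX

theorem exists_lat_of_infDist' {s : ℂ} (h : ¬ 3 / 20 ≤ Metric.infDist s Lset) :
    ∃ l : ℂ, IsLat l ∧ ‖s - l‖ ≤ 3 / 20 := by
  obtain ⟨l, hl, hd⟩ := isClosed_Lset.exists_infDist_eq_dist ⟨0, 0, 0, by simp⟩ s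
  refine ⟨l, hl, ?_⟩
  rw [← dist_eq_norm, ← hd]
  exact (not_le.mp h).le

theorem infDist_shift {s l : ℂ} (hl : IsLat l) :
    Metric.infDist (s - l) Lset = Metric.infDist s Lset := by
  have key : ∀ s l : ℂ, IsLat l → Metric.infDist (s - l) Lset ≤ Metric.infDist s Lset := by
    intro s l hl
    obtain ⟨x, hx, hd⟩ := isClosed_Lset.exists_infDist_eq_dist ⟨0, 0, 0, by simp⟩ s
    rw [hd]
    have hx' : x - l ∈ Lset := by
      rw [sub_eq_add_neg]
      exact IsLat.add hx hl.neg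
    refine (Metric.infDist_le_dist_of_mem hx').trans ?_
    rw [dist_eq_norm, dist_eq_norm]
    exact le_of_eq (congrArg norm (by ring))
  apply le_antisymm (key s l hl)
  have := key (s - l) (-l) hl.neg
  rwa [sub_neg_eq_add, sub_add_cancel] at this

theorem cover_L (z : Fin 2 → ℂ) : (∃ l ∈ gaussLattice 2, z + l ∈ L0) ∨
    (∃ l ∈ gaussLattice 2, z + l ∈ L1) ∨ (∃ l ∈ gaussLattice 2, z + l ∈ L2) := by
  obtain ⟨m, hm, hzm⟩ := exists_lat (z 1)
  have e1 : ∀ l : ℂ, (z + ![-l, -m]) 1 = z 1 - m := by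
    intro l
    simp only [Pi.add_apply, Matrix.cons_val_one, Matrix.cons_val_zero]; ring
  have e0 : ∀ l : ℂ, (z + ![-l, -m]) 0 = z 0 - l := by
    intro l
    simp only [Pi.add_apply, Matrix.cons_val_zero]; ring
  by_cases h1 : 3 / 20 ≤ Metric.infDist (z 0) Lset
  · by_cases h2 : 3 / 20 ≤ Metric.infDist (z 0 - 1 / 2) Lset
    · left
      obtain ⟨l, hl, hzl⟩ := exists_lat (z 0)
      refine ⟨![-l, -m], neg_pair_mem hl hm, ⟨?_, ?_⟩, ?_⟩
      · rw [e0, infDist_shift hl]; exact h1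
      · have : (z + ![-l, -m]) 0 - 1 / 2 = (z 0 - 1 / 2) - l := by rw [e0]; ring
        rw [this, infDist_shift hl]; exact h2
      · rw [pi_norm_le_iff_of_nonneg (by norm_num)]
        intro k
        fin_cases k
        · show ‖(z + ![-l, -m]) 0‖ ≤ 2
          rw [e0]; exact hzl.trans (by norm_num)
        · show ‖(z + ![-l, -m]) 1‖ ≤ 2
          rw [e1]; exact hzm.trans (by norm_num)
    · right; right
      obtain ⟨l, hl, hd⟩ := exists_lat_of_infDist' h2
      refine ⟨![-l, -m], neg_pair_mem hl hm, ?_, ?_⟩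
      · have e : (z + ![-l, -m]) 0 - 1 / 2 = z 0 - 1 / 2 - l := by rw [e0]; ring
        rw [e]; exact hd
      · rw [e1]; exact hzm.trans (by norm_num)
  · right; left
    obtain ⟨l, hl, hd⟩ := exists_lat_of_infDist' h1
    refine ⟨![-l, -m], neg_pair_mem hl hm, ?_, ?_⟩
    · rw [e0]; exact hd
    · rw [e1]; exact hzm.trans (by norm_num)

/-- the data for the rank two bundle -/
theorem exists_data {ε : ℝ} (hε : 0 < ε) : Nonempty (Data (bundle ε hε)) := by
  obtain ⟨B, hB, h1, h2⟩ := exists_B' hε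
  refine ⟨{
    P := PPi ε B
    Q := QQi ε
    K := ![L0, L1, L2]
    smooth_P := fun i => PPi_smooth hε B i
    smooth_Q := fun i => (QQi_smooth ε i).contDiffOn
    pos_P := fun i z hz u hu => PPi_pos hε hB i z hz u hu
    pos_Q := fun i z hz u hu => QQi_pos hε i z hz u hu
    homog_P := fun i z _ u t => PPi_homog ε B i z u t
    homog_Q := fun i z _ u t => QQi_homog ε i z u t
    compat_P := fun i j l hl z hz hzl u => PPi_compat hε B i j hl hz hzl u
    compat_Q := fun i j l hl z hz hzl u => QQi_compat hε i j hl hz hzl u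
    compact_K := ?_
    K_subset := ?_
    cover_K := ?_
    levi_P := ?_ }⟩
  · intro i
    change Fin 3 at i
    fin_cases i
    · exact isCompact_L0
    · exact isCompact_L1
    · exact isCompact_L2
  · intro i
    change Fin 3 at i
    fin_cases i
    · exact L0_subset
    · exact L1_subset
    · exact L2_subset
  · intro z
    rcases cover_L z with ⟨l, hl, h⟩ | ⟨l, hl, h⟩ | ⟨l, hl, h⟩
    · exact ⟨(0 : Fin 3), l, hl, h⟩
    · exact ⟨(1 : Fin 3), l, hl, h⟩
    · exact ⟨(2 : Fin 3), l, hl, h⟩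
  · intro i
    change Fin 3 at i
    fin_cases i
    · intro z hz u hu X hX
      exact chart0_pos hB z (L0_subset hz) u hu X hX
    · exact h1
    · exact h2

/-- **ampleness** -/
theorem big_isAmple {ε : ℝ} (hε : 0 < ε) (m s : ℕ) : (ext (bundle ε hε) m s).IsAmple := by
  obtain ⟨D⟩ := exists_data hε
  have : Finite (bundle ε hε).ι := inferInstanceAs (Finite (Fin 3))
  exact ext_isAmple D m s

end Vale.Agent.P296.H354
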