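import Vale.Agent.P296.H354.Quot
import Vale.Agent.P296.H354.Inst

/-!
# P296 (H354): no Griffiths positive metric on the big bundles
-/

namespace Vale.Agent.P296.H354

open Complex Matrix Theta Filter Topology
open scoped ContDiff ComplexOrder
open Vale.Agent.P296 Vale.Agent.P296.Glue

variable {ε : ℝ} {hε : 0 < ε} (H : HermitianMetric (bundle ε hε))

theorem nlm_nn' (hN : ∀ i : Fin 3, ∀ z ∈ Uset i, Curv.NLMv (hM H i) z) {i : Fin 3} {x : ℂ × ℂ} (hx : zz x ∈ Uset i) :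
    NoG.NLM (nn H i) x := by
  intro w a b hw ha hb hab hmax
  refine hN i _ hx (zz w) (fun ζ => zz (a ζ, b ζ)) (zz_ne_zero hw) ?_ (zz_ne_zero hab) ?_
  · intro k
    fin_cases k
    · exact ha
    · exact hb
  · have h1 : (fun ζ : ℂ => nn H i (x + ζ • w) (a ζ, b ζ)) =
        fun ζ => Real.sqrt (dualNorm (hM H i (zz x + ζ • zz w)) (zz (a ζ, b ζ))) := by
      funext ζ
      unfold nn
      rw [zz_add, zz_smul]
    rw [h1] at hmax
    apply isLocalMax_of_sqrt _ hmax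
    simp only [zero_smul, add_zero]
    exact (Curv.dualNorm_pos (posDef H hx) (zz_ne_zero hab)).le

theorem nomax' (hN : ∀ i : Fin 3, ∀ z ∈ Uset i, Curv.NLMv (hM H i) z) (k : Fin 2) (x w : ℂ × ℂ) (hw : w ≠ 0) (G : ℂ → ℂ)
    (hGa : AnalyticAt ℂ G 0) :
    ¬ IsLocalMax (fun ζ : ℂ => ff H k (x + ζ • w) *
      Real.exp (NoG.phi (sg k) (x + ζ • w) / 2) * Real.exp ((G ζ).re)) 0 := by
  obtain ⟨i, l, hl, hzl⟩ := Bdl.cover (zz x)
  intro hmax
  set y : ℂ → (Fin 2 → ℂ) := fun ζ => zz x + ζ • zz w with hy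
  set u : ℂ → (Fin 2 → ℂ) := fun ζ =>
    (exp (G ζ) * (eAut (sg k) l (y ζ))⁻¹) • Wm ε i (y ζ + l) k with hu
  have hyc : Continuous y := by fun_prop
  have hev : ∀ᶠ ζ in 𝓝 (0 : ℂ), y ζ + l ∈ Uset i := by
    apply (hyc.add continuous_const).continuousAt.eventually
    apply (Bdl.isOpen_Uset i).mem_nhds
    simpa [hy] using hzl
  have hform : ∀ ζ : ℂ, y ζ + l ∈ Uset i → ff H k (x + ζ • w) *
      Real.exp (NoG.phi (sg k) (x + ζ • w) / 2) * Real.exp ((G ζ).re) =
      Real.sqrt (dualNorm (hM H i (zz x + l + ζ • zz w)) (u ζ)) := by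
    intro ζ hζ
    have e1 : zz (x + ζ • w) = y ζ := by rw [zz_add, zz_smul]
    have e2 : zz x + l + ζ • zz w = y ζ + l := by
      simp only [hy]; abel
    have hrow := (Curv.dualNorm_pos (posDef H hζ) (row_ne_zero hε i (y ζ + l) k)).le
    have e3 : ‖eAut (sg k) l (y ζ)‖ = Real.exp (phi (sg k) (y ζ + l) / 2 - phi (sg k) (y ζ) / 2) := by
      have h1 := norm_eAut (sg k) l (y ζ)
      have h2 : ‖eAut (sg k) l (y ζ)‖ = Real.sqrt (‖eAut (sg k) l (y ζ)‖ ^ 2) :=
        (Real.sqrt_sq (norm_nonneg _)).symm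
      rw [h2, h1, ← sub_div, Real.exp_half]
    rw [phi_zz, e1, e2, hu]
    simp only
    rw [Curv.sqrt_dualNorm_smul, norm_mul, norm_inv, e3, Complex.norm_exp]
    unfold ff
    rw [e1, Ng_eq H k hl hζ]
    unfold NN
    rw [Real.sqrt_mul hrow, ← Real.exp_half, ← Real.exp_neg, ← Real.exp_add,
      mul_assoc (Real.sqrt _), ← Real.exp_add, mul_assoc (Real.sqrt _), ← Real.exp_add, mul_comm]
    congr 2
    ring
  refine hN i _ hzl (zz w) u (zz_ne_zero hw) ?_ ?_ ?_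
  · intro a
    have hya : ∀ b, AnalyticAt ℂ (fun ζ => y ζ b) 0 := by
      intro b
      simp only [hy, Pi.add_apply, Pi.smul_apply, smul_eq_mul]
      fun_prop
    have h1 : AnalyticAt ℂ (fun ζ => exp (G ζ)) 0 := hGa.cexp
    have h2 : AnalyticAt ℂ (fun ζ => eAut (sg k) l (y ζ)) 0 := by
      unfold eAut
      have := hya 0
      have := hya 1
      fun_prop
    have h3 : AnalyticAt ℂ (fun ζ => (eAut (sg k) l (y ζ))⁻¹) 0 :=
      h2.inv (Bdl.eAut_ne_zero _ _ _)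
    have h4 : AnalyticAt ℂ (fun ζ => Wm ε i (y ζ + l) k a) 0 := by
      have := hya 0
      fin_cases i <;> fin_cases k <;> fin_cases a <;>
        simp [Bdl.Wm_zero, Bdl.Wm_one, Bdl.Wm_two] <;> fun_prop
    exact (h1.mul h3).mul h4
  · simp only [hu]
    exact smul_ne_zero (mul_ne_zero (exp_ne_zero _) (inv_ne_zero (Bdl.eAut_ne_zero _ _ _)))
      (row_ne_zero hε i _ k)
  · apply isLocalMax_of_sqrt
    · have hu0 : u 0 ≠ 0 := by
        simp only [hu]
        exact smul_ne_zero (mul_ne_zero (exp_ne_zero _) (inv_ne_zero (Bdl.eAut_ne_zero _ _ _)))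
          (row_ne_zero hε i _ k)
      simp only [zero_smul, add_zero]
      exact (Curv.dualNorm_pos (posDef H hzl) hu0).le
    · have h0 : y 0 + l ∈ Uset i := hev.self_of_nhds
      filter_upwards [hmax, hev] with ζ h1 h2
      rw [← hform ζ h2, ← hform 0 h0]
      exact h1

theorem data' (hN : ∀ i : Fin 3, ∀ z ∈ Uset i, Curv.NLMv (hM H i) z) :
    NoG.NoGData ε (ff H 0) (ff H 1) (nn H 1) (nn H 2) where
  cont1 := continuous_ff H 0
  cont2 := continuous_ff H 1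
  pos1 := ff_pos H 0
  pos2 := ff_pos H 1
  per1 := ff_periodic H 0
  per2 := ff_periodic H 1
  nrm1 := fun x hx => isNrm_nn H (i := 1) hx
  nrm2 := fun x hx => isNrm_nn H (i := 2) hx
  nc1 := continuousOn_nn H 1
  nc2 := continuousOn_nn H 2
  nlm1 := fun x hx => nlm_nn' H hN (i := 1) hx
  nlm2 := fun x hx => nlm_nn' H hN (i := 2) hx
  link1a := fun x hx => link H 0 (i := 1) hx
  link1b := fun x hx => link H 1 (i := 1) hx
  link2a := fun x hx => link H 1 (i := 2) hx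
  link2b := fun x hx => link H 0 (i := 2) hx
  max1 := fun x _ G hGa => nomax' H hN 0 x (4, -3) (by simp) G hGa
  max2 := fun x _ G hGa => nomax' H hN 1 x (4, 3) (by simp) G hGa

/-- **The big bundles have no Griffiths positive metric for small `ε`.** -/
theorem big_no_griffiths : ∃ ε₀ : ℝ, 0 < ε₀ ∧ ∀ ε : ℝ, ∀ hε : 0 < ε, ε ≤ ε₀ → ∀ m s : ℕ,
    ∀ H : HermitianMetric (ext (bundle ε hε) m s), ¬ H.GriffithsPositive := by
  obtain ⟨ε₀, h0, h⟩ := NoG.nog_core
  refine ⟨ε₀, h0, fun ε hε hle m s H hG => ?_⟩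
  exact h ε hε hle _ _ _ _ (data' (quot H) fun i z hz => quot_nlm hG (i := i) hz)

end Vale.Agent.P296.H354
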