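import Vale.Agent.P296.H354.Defs
import Vale.Agent.P296.H354.NoG

/-!
# P296 (H354): the final statement in every dimension and every rank
-/

namespace Vale.Agent.P296.H354

open Complex Matrix
open scoped ContDiff Topology ComplexOrder

/-- the same bundle, in the definitions of the final statement -/
noncomputable def toFinalN {n r : ℕ} (A : TorusBundle (gaussLattice n) r) :
    Final.Bundle (gaussN n) r where
  ι := A.ι
  U := A.U
  isOpen_U := A.isOpen_U
  cover := A.cover
  g := A.g
  holo := fun i j l hl a b => A.holo i j l hl a b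
  g_self := A.g_self
  cocycle := fun i j k l hl m hm z hz h1 h2 => A.cocycle i j k l hl m hm z hz h1 h2

theorem isAmple_toFinalN {n r : ℕ} (A : TorusBundle (gaussLattice n) r) (hA : A.IsAmple) :
    (toFinalN A).IsAmple := by
  obtain ⟨F, hF⟩ := hA
  refine ⟨⟨F.F, ?_, F.pos, fun i z hz u hu t ht => F.homog i z hz u hu t ht, ?_⟩, ?_⟩
  · intro i
    exact ofRealCLM.contDiff.comp_contDiffOn (F.smooth i)
  · intro i j l hl z hz hzl u hu
    exact F.compat i j l hl z hz hzl u hu
  · intro i z hz u hu ξ w hw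
    have hopen : IsOpen {p : (Fin n → ℂ) × (Fin r → ℂ) | p.1 ∈ A.U i ∧ p.2 ≠ 0} :=
      ((A.isOpen_U i).preimage continuous_fst).inter (isOpen_ne.preimage continuous_snd)
    have hmem : ((z, u) : (Fin n → ℂ) × (Fin r → ℂ)) ∈
        {p : (Fin n → ℂ) × (Fin r → ℂ) | p.1 ∈ A.U i ∧ p.2 ≠ 0} := ⟨hz, hu⟩
    have hc : ContDiffAt ℝ 2 (F.F i) (z, u) :=
      ((F.smooth i).contDiffAt (hopen.mem_nhds hmem)).of_le (by norm_cast)
    have hlog : ContDiffAt ℝ 2 (fun p => Real.log (F.F i p)) (z, u) :=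
      hc.log (F.pos i z hz u hu).ne'
    have h1 := Transfer.final_levi_ofReal hlog (ξ, w)
    change 0 < (Final.levi (fun p : (Fin n → ℂ) × (Fin r → ℂ) =>
      ((Real.log (F.F i p) : ℝ) : ℂ)) (ξ, w) (z, u)).re
    rw [h1, ofReal_re]
    exact hF i z hz u hu ξ w hw

theorem noGriffiths_toFinalN {n r : ℕ} (A : TorusBundle (gaussLattice n) r)
    (hN : ∀ H : HermitianMetric A, ¬ H.GriffithsPositive) (H : Final.Metric (toFinalN A)) :
    ¬ H.GriffithsPositive := by
  intro hG
  let H' : HermitianMetric A := {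
    h := H.h
    smooth := H.smooth
    posDef := H.posDef
    compat := fun i j l hl z hz hzl => H.compat i j l hl z hz hzl }
  refine hN H' ?_
  intro i z hz ξ hξ v hv
  have hsm : ∀ a b, ContDiffAt ℝ ∞ (fun w => H.h i w a b) z := fun a b =>
    (H.smooth i a b).contDiffAt ((A.isOpen_U i).mem_nhds hz)
  have e1 : ∀ a b, levi (fun w => H.h i w a b) z ξ = Final.levi (fun w => H.h i w a b) ξ z := by
    intro a b
    have h2 : ContDiffAt ℝ 2 (fun w => H.h i w a b) z := (hsm a b).of_le (by norm_cast)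
    rw [Transfer.final_levi_eq h2]
  have key : chernCurvature (H'.h i) z ξ v = Final.curvature (H.h i) z ξ v := by
    unfold chernCurvature Final.curvature
    simp only [H', e1]
    rfl
  rw [key]
  exact hG i z hz ξ hξ v hv

/-- counterexamples in every dimension `≥ 2` and every rank `≥ 2` -/
theorem all_dim_rank (n r : ℕ) (hn : 2 ≤ n) (hr : 2 ≤ r) :
    ∃ E : Final.Bundle (gaussN n) r, E.IsAmple ∧ ∀ H : Final.Metric E, ¬ H.GriffithsPositive := by
  obtain ⟨m, rfl⟩ := Nat.exists_eq_add_of_le hn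
  obtain ⟨s, rfl⟩ := Nat.exists_eq_add_of_le hr
  obtain ⟨ε, h0, h⟩ := big_no_griffiths
  exact ⟨toFinalN (ext (bundle ε h0) m s), isAmple_toFinalN _ (big_isAmple h0 m s),
    noGriffiths_toFinalN _ (h ε h0 le_rfl m s)⟩

end Vale.Agent.P296.H354
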