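import Vale.Agent.P296.H354.Ext

/-!
# P296 (H354): restriction to a slice and quotient of a Hermitian metric
-/

namespace Vale.Agent.P296.H354

open Complex Matrix
open scoped ContDiff ComplexOrder Topology

/-- inclusion of the first coordinates -/
noncomputable def iE (n m : ℕ) : (Fin n → ℂ) →L[ℂ] (Fin (n + m) → ℂ) :=
  ContinuousLinearMap.pi fun k =>
    Fin.addCases (fun i => ContinuousLinearMap.proj i) (fun _ => 0) k

theorem iE_left {n m : ℕ} (z : Fin n → ℂ) (k : Fin n) : iE n m z (Fin.castAdd m k) = z k := by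
  simp [iE]

theorem iE_right {n m : ℕ} (z : Fin n → ℂ) (k : Fin m) : iE n m z (Fin.natAdd n k) = 0 := by
  simp [iE]

theorem pE_iE {n m : ℕ} (z : Fin n → ℂ) : pE n m (iE n m z) = z := by
  funext k
  rw [pE_apply, iE_left]

theorem pL_iE {n m : ℕ} (z : Fin n → ℂ) : pL n m (iE n m z) = 0 := by
  funext k
  rw [pL_apply, iE_right]
  rfl

theorem iE_mem {n m : ℕ} {l : Fin n → ℂ} (hl : l ∈ gaussLattice n) :
    iE n m l ∈ gaussLattice (n + m) := by
  intro k
  refine Fin.addCases (fun i => ?_) (fun i => ?_) k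
  · rw [iE_left]; exact hl i
  · rw [iE_right]; exact ⟨0, 0, by simp⟩

theorem iE_ne_zero {n m : ℕ} {z : Fin n → ℂ} (hz : z ≠ 0) : iE n m z ≠ 0 := by
  intro h
  apply hz
  rw [← pE_iE (m := m) z, h, map_zero]

/-- principal block -/
noncomputable def pb {r s : ℕ} (M : Matrix (Fin (r + s)) (Fin (r + s)) ℂ) :
    Matrix (Fin r) (Fin r) ℂ := M.submatrix (Fin.castAdd s) (Fin.castAdd s)

theorem pb_posDef {r s : ℕ} {M : Matrix (Fin (r + s)) (Fin (r + s)) ℂ} (hM : M.PosDef) :
    (pb M).PosDef := hM.submatrix (Fin.castAdd_injective r s)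

theorem blk_mul_apply {r s : ℕ} (A : Matrix (Fin r) (Fin r) ℂ) (c : ℂ)
    (M : Matrix (Fin (r + s)) (Fin (r + s)) ℂ) (i : Fin r) (j : Fin (r + s)) :
    ((blk A c : Matrix (Fin (r + s)) (Fin (r + s)) ℂ) * M : Matrix (Fin (r + s)) (Fin (r + s)) ℂ)
      (Fin.castAdd s i) j = ∑ k, A i k * M (Fin.castAdd s k) j := by
  rw [Matrix.mul_apply, Fin.sum_univ_add]
  simp only [blk_ll, blk_lr, zero_mul, Finset.sum_const_zero, add_zero]

theorem mul_blk_conjTranspose_apply {r s : ℕ} (A : Matrix (Fin r) (Fin r) ℂ) (c : ℂ)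
    (M : Matrix (Fin (r + s)) (Fin (r + s)) ℂ) (i : Fin (r + s)) (j : Fin r) :
    (M * (blk A c : Matrix (Fin (r + s)) (Fin (r + s)) ℂ)ᴴ : Matrix (Fin (r + s)) (Fin (r + s)) ℂ)
      i (Fin.castAdd s j) = ∑ k, M i (Fin.castAdd s k) * Aᴴ k j := by
  rw [Matrix.mul_apply, Fin.sum_univ_add]
  simp only [Matrix.conjTranspose_apply, blk_ll, blk_lr, star_zero, mul_zero,
    Finset.sum_const_zero, add_zero]

theorem pb_conj {r s : ℕ} (A : Matrix (Fin r) (Fin r) ℂ) (c : ℂ)
    (M : Matrix (Fin (r + s)) (Fin (r + s)) ℂ) :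
    pb (blk A c * M * (blk A c)ᴴ) = A * pb M * Aᴴ := by
  ext i j
  unfold pb
  rw [Matrix.submatrix_apply, mul_blk_conjTranspose_apply, Matrix.mul_apply]
  refine Finset.sum_congr rfl fun k _ => ?_
  rw [blk_mul_apply, Matrix.mul_apply]
  rfl

/-- the Gram matrix of the quotient metric -/
noncomputable def qm {r s : ℕ} (M : Matrix (Fin (r + s)) (Fin (r + s)) ℂ) :
    Matrix (Fin r) (Fin r) ℂ := (pb M⁻¹)⁻¹

theorem qm_posDef {r s : ℕ} {M : Matrix (Fin (r + s)) (Fin (r + s)) ℂ} (hM : M.PosDef) :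
    (qm M).PosDef := (pb_posDef hM.inv).inv

theorem posDef_isUnit_det {r : ℕ} {M : Matrix (Fin r) (Fin r) ℂ} (hM : M.PosDef) :
    IsUnit M.det := (Matrix.isUnit_iff_isUnit_det _).mp hM.isUnit

theorem qm_inv {r s : ℕ} {M : Matrix (Fin (r + s)) (Fin (r + s)) ℂ} (hM : M.PosDef) :
    (qm M)⁻¹ = pb M⁻¹ := Matrix.nonsing_inv_nonsing_inv _ (posDef_isUnit_det (pb_posDef hM.inv))

/-- the dual norm of the quotient metric is the restriction of the dual norm -/
theorem dualNorm_qm {r s : ℕ} {M : Matrix (Fin (r + s)) (Fin (r + s)) ℂ} (hM : M.PosDef)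
    (u : Fin r → ℂ) : dualNorm (qm M) u = dualNorm M (iE r s u) := by
  unfold dualNorm
  rw [qm_inv hM]
  congr 1
  simp only [dotProduct, Matrix.mulVec, Pi.star_apply]
  rw [Fin.sum_univ_add]
  simp only [iE_left, iE_right, zero_mul, Finset.sum_const_zero, add_zero]
  refine Finset.sum_congr rfl fun a _ => ?_
  rw [Fin.sum_univ_add]
  simp only [iE_left, iE_right, star_zero, mul_zero, Finset.sum_const_zero, add_zero]
  rfl

theorem qm_conj {r s : ℕ} {A : Matrix (Fin (r + s)) (Fin (r + s)) ℂ} (hA : A.PosDef)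
    (g : Matrix (Fin r) (Fin r) ℂ) (c : ℂ)
    (hB : ((blk g c : Matrix (Fin (r + s)) (Fin (r + s)) ℂ)ᴴ * A * blk g c).PosDef) :
    qm ((blk g c : Matrix (Fin (r + s)) (Fin (r + s)) ℂ)ᴴ * A * blk g c) =
      gᴴ * qm A * g := by
  set G : Matrix (Fin (r + s)) (Fin (r + s)) ℂ := blk g c with hG
  set B := Gᴴ * A * G with hBdef
  have hdB := posDef_isUnit_det hB
  have hdG : IsUnit G.det := by
    rw [hBdef, Matrix.det_mul] at hdB
    exact isUnit_of_mul_isUnit_right hdB
  have hdG' : IsUnit (Gᴴ).det := by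
    rw [Matrix.det_conjTranspose]
    exact hdG.star
  have hAinv : A⁻¹ = G * B⁻¹ * Gᴴ := by
    rw [hBdef, Matrix.mul_inv_rev, Matrix.mul_inv_rev, ← Matrix.mul_assoc,
      Matrix.mul_nonsing_inv _ hdG, Matrix.one_mul, Matrix.mul_assoc,
      Matrix.nonsing_inv_mul _ hdG', Matrix.mul_one]
  have h1 : pb A⁻¹ = g * pb B⁻¹ * gᴴ := by
    rw [hAinv, hG, pb_conj]
  have hdpb := posDef_isUnit_det (pb_posDef hA.inv)
  have hdg : IsUnit g.det := by
    rw [h1, Matrix.mul_assoc, Matrix.det_mul] at hdpb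
    exact isUnit_of_mul_isUnit_left hdpb
  have hdg' : IsUnit (gᴴ).det := by
    rw [Matrix.det_conjTranspose]
    exact hdg.star
  unfold qm
  rw [h1]
  generalize pb B⁻¹ = N
  rw [Matrix.mul_inv_rev, Matrix.mul_inv_rev, ← Matrix.mul_assoc,
    Matrix.mul_nonsing_inv _ hdg', Matrix.one_mul, Matrix.mul_assoc,
    Matrix.nonsing_inv_mul _ hdg, Matrix.mul_one]

section smooth

variable {V : Type*} [NormedAddCommGroup V] [NormedSpace ℂ V]

theorem contDiffOn_det {r : ℕ} {M : V → Matrix (Fin r) (Fin r) ℂ} {U : Set V}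
    (hM : ∀ a b, ContDiffOn ℝ ∞ (fun z => M z a b) U) :
    ContDiffOn ℝ ∞ (fun z => (M z).det) U := by
  simp only [Matrix.det_apply]
  refine ContDiffOn.sum fun σ _ => ?_
  refine ContDiffOn.const_smul _ ?_
  exact contDiffOn_prod fun i _ => hM _ _

theorem contDiffOn_inv_entry {r : ℕ} {M : V → Matrix (Fin r) (Fin r) ℂ} {U : Set V}
    (hM : ∀ a b, ContDiffOn ℝ ∞ (fun z => M z a b) U) (hdet : ∀ z ∈ U, (M z).det ≠ 0) (a b : Fin r) :
    ContDiffOn ℝ ∞ (fun z => (M z)⁻¹ a b) U := by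
  have e : ∀ z, (M z)⁻¹ a b = (M z).det⁻¹ * ((M z).updateRow b (Pi.single a 1)).det := by
    intro z
    rw [Matrix.inv_def, Ring.inverse_eq_inv', Matrix.smul_apply, smul_eq_mul,
      Matrix.adjugate_apply]
  simp only [e]
  refine ((contDiffOn_det hM).inv hdet).mul (contDiffOn_det fun i j => ?_)
  by_cases h : i = b
  · subst h
    simp only [Matrix.updateRow_self]
    exact contDiffOn_const
  · simp only [Matrix.updateRow_ne h]
    exact hM i j

end smooth

variable {n r : ℕ} {E : TorusBundle (gaussLattice n) r} {m s : ℕ}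

/-- restriction to the slice `z_L = 0` and quotient to `E` of a Hermitian metric on the big bundle -/
noncomputable def quot (H : HermitianMetric (ext E m s)) : HermitianMetric E where
  h := fun i z => qm (H.h i (iE n m z))
  smooth := by
    intro i a b
    have hmem : ∀ z ∈ E.U i, iE n m z ∈ (ext E m s).U i := by
      intro z hz
      change pE n m (iE n m z) ∈ E.U i
      rw [pE_iE]; exact hz
    have h1 : ∀ a b, ContDiffOn ℝ ∞ (fun z => H.h i (iE n m z) a b) (E.U i) := fun a b =>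
      (H.smooth i a b).comp (g := fun z => H.h i z a b)
        ((iE n m).contDiff.restrict_scalars ℝ).contDiffOn hmem
    have h2 : ∀ a b, ContDiffOn ℝ ∞ (fun z => (H.h i (iE n m z))⁻¹ a b) (E.U i) :=
      contDiffOn_inv_entry h1 fun z hz => (posDef_isUnit_det (H.posDef i _ (hmem z hz))).ne_zero
    refine contDiffOn_inv_entry (M := fun z => pb (H.h i (iE n m z))⁻¹) ?_ ?_ a b
    · exact fun a b => h2 _ _
    · exact fun z hz => (posDef_isUnit_det (pb_posDef (H.posDef i _ (hmem z hz)).inv)).ne_zero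
  posDef := by
    intro i z hz
    apply qm_posDef
    apply H.posDef
    change pE n m (iE n m z) ∈ E.U i
    rw [pE_iE]; exact hz
  compat := by
    intro i j l hl z hz hzl
    have hz' : iE n m z ∈ (ext E m s).U j := by
      change pE n m (iE n m z) ∈ E.U j
      rw [pE_iE]; exact hz
    have hzl' : iE n m z + iE n m l ∈ (ext E m s).U i := by
      change pE n m (iE n m z + iE n m l) ∈ E.U i
      rw [map_add, pE_iE, pE_iE]; exact hzl
    have h := H.compat i j (iE n m l) (iE_mem hl) (iE n m z) hz' hzl'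
    have hg : (ext E m s).g i j (iE n m l) (iE n m z) =
        blk (E.g i j l z) (aut (iE n m l) (iE n m z)) := by
      change blk (aut (pL n m (iE n m l)) (pL n m (iE n m z)) •
        E.g i j (pE n m (iE n m l)) (pE n m (iE n m z))) _ = _
      rw [pL_iE, pL_iE, pE_iE, pE_iE, aut_zero, one_smul]
    rw [hg] at h
    have hposB := H.posDef j _ hz'
    rw [h] at hposB
    rw [h, map_add]
    exact qm_conj (H.posDef i _ hzl') _ _ hposB

/-- the quotient metric of a Griffiths positive metric has the no-local-maximum property -/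
theorem quot_nlm {H : HermitianMetric (ext E m s)} (hG : H.GriffithsPositive) {i : E.ι}
    {z : Fin n → ℂ} (hz : z ∈ E.U i) : Curv.NLMv ((quot H).h i) z := by
  have hz' : iE n m z ∈ (ext E m s).U i := by
    change pE n m (iE n m z) ∈ E.U i
    rw [pE_iE]; exact hz
  have hbig : Curv.NLMv (H.h i) (iE n m z) :=
    Curv.nlm_of_curvature ((ext E m s).isOpen_U i)
      (fun a b => (H.smooth i a b).of_le (by norm_cast)) (fun w hw => H.posDef i w hw) hz'
      fun ξ hξ v hv => hG i _ hz' ξ hξ v hv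
  intro ξ u hξ hu hu0 hmax
  refine hbig (iE n m ξ) (fun ζ => iE r s (u ζ)) (iE_ne_zero hξ) ?_ (iE_ne_zero hu0) ?_
  · intro a
    refine Fin.addCases (fun k => ?_) (fun k => ?_) a
    · simp only [iE_left]
      exact hu k
    · simp only [iE_right]
      exact analyticAt_const
  · have hcont : Continuous fun ζ : ℂ => z + ζ • ξ := by fun_prop
    have hev : ∀ᶠ ζ : ℂ in 𝓝 0, z + ζ • ξ ∈ E.U i := by
      apply hcont.continuousAt.eventually
      simpa only [zero_smul, add_zero, Filter.eventually_mem_set] using (E.isOpen_U i).mem_nhds hz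
    refine hmax.congr ?_
    filter_upwards [hev] with ζ hζ
    have hζ' : iE n m (z + ζ • ξ) ∈ (ext E m s).U i := by
      change pE n m (iE n m _) ∈ E.U i
      rw [pE_iE]; exact hζ
    change dualNorm (qm (H.h i (iE n m (z + ζ • ξ)))) (u ζ) = _
    rw [dualNorm_qm (H.posDef i _ hζ'), map_add, map_smul]

end Vale.Agent.P296.H354
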